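import Vale.Agent.P014Y.Rk.St
import Vale.Agent.P014Y.Md.Kil
import Vale.Agent.P014Y.Md.Dsc

/-! # P014Z, block RK: killing for families of split planes at any odd prime (words, rows, glue) -/

set_option autoImplicit false
set_option linter.all false

noncomputable section

namespace Vale.Agent.P014Z.Rk

open NumberField Matrix Module
open scoped Classical
open Vale.Agent.P022 (Qb GQ IsConj)
open Vale.Agent.P027M.S (Inert)
open Vale.Agent.P022D.W (dec)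
open Vale.Agent.P022E.GW (Ov Fb)
open Vale.Agent.P022K.G2 (In om)
open Vale.Agent.P014U Vale.Agent.P014Y
open L2 (W M2)
open X4S (Pl)
open P004C.Wa (Sp)
open P014Y.F (Crv Fld)
open Mu (F X Rs Nf tw Sq Sd Ly RSE Zx tb St Bl)
open Md (U1 Ag Fq)
open Bo (Cd LEV2)
open P014Y.Rk (Dg Cm Ev Ty Dd KLA Ra RSA)
open Md.Ki (up)

variable [Pp]

section words

variable {e : Crv} (b : Fld e)

/-- one layer -/
structure Lz (k c : ℕ) (χ : GQ → ZMod (pp * pp ^ k)) : Prop where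
  ad : b.Ad (k + 1) c fun g => (χ g).val
  sq : Squarefree c
  one : 1 < c
  out : ∀ q : ℕ, q.Prime → q ∣ c → q ∉ e.S ∧ ¬ q ∣ b.δ'
  spl : ∃ w w' : Ideal (𝓞 b.K), Sp c w w'
  ram : ∀ q P, Ov q P → q ∣ c → ∃ t ∈ b.Γ, Inert P t ∧ χ t = 1
  fro : ∀ p ∈ e.S, ∀ P, Ov p P → dec P ≤ b.Γ ∧ ∀ g, Fb p P g → IsUnit (χ g)

/-- split primes of level `n`, the Frobenius elements lie in `V` -/
structure Gt (V : Subgroup GQ) (n : ℕ) (E : Finset ℕ) (q : ℕ) : Prop where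
  pr : q.Prime
  nE : q ∉ E
  md : q ≡ 1 [MOD pp ^ n]
  sq : Sq b.Γ q
  fv : ∀ P φ, Ov q P → Fb q P φ → φ ∈ V

/-- the local factor is bounded -/
def Gq (e : Crv) (m q : ℕ) : Prop := ¬ (pp : ℤ) ^ m ∣ ((q : ℤ) + 1) ^ 2 - e.a q ^ 2

/-- subgroups of dihedral type which are unramified at the bad primes -/
structure Vk (V : Subgroup GQ) : Prop where
  nrm : V.Normal
  opn : IsOpen (V : Set GQ)
  le : V ≤ b.Γ
  ine : ∀ l ∈ e.S, ∀ P, Ov l P → ∀ g, Inert P g → g ∈ V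
  unr : ∃ E : Finset ℕ, In (E : Set ℕ) ⊆ V
  anti : ∀ g ∈ b.Γ, g * (b.c * g * b.c⁻¹) ∈ V

variable {ι : Type}

/-- the planes and their twists -/
def a2 (a : ι → GQ →* M2) (x : ι × Fin 2) : GQ →* M2 := ![a x.1, tw (-b.δ') (a x.1)] x.2

/-- split planes with distinct non trivial characters -/
structure Rf (e : Crv) (a : ι → GQ →* M2) : Prop where
  ra : ∀ i, Ra e (a i)
  nf : ∀ i, Nf (a i) ⊤
  ne : ∀ i j i' j', (∀ g, a i g j j = a i' g j' j') → i = i' ∧ j = j'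

/-- the primes which kill -/
structure G3 (a : ι → GQ →* M2) (V : Subgroup GQ) (pl : Pl) (m n : ℕ) (E : Finset ℕ) (q : ℕ) : Prop
    extends Gt b V n E q where
  up : ∀ x, U1 (a2 b a x) pl (Sd b) q
  gq : Gq e m q

/-- a layer; the Frobenius elements of `pl` have degree zero -/
structure La (a : ι → GQ →* M2) (V : Subgroup GQ) (E : Finset ℕ) (m k : ℕ) (pl : Pl) (Q : Finset ℕ)
    (χ : GQ → ZMod (pp * pp ^ k)) : Prop where
  lz : Lz b k (∏ q ∈ Q, q) χ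
  g3 : ∀ q ∈ Q, G3 b a V pl m (k + 1) E q
  dz : ∀ q ∈ Q, ∀ g, pp ∣ (χ (g * pl.σ q * g⁻¹)).val

/-- **one layer along which the residual groups are killed** -/
structure Kd (a : ι → GQ →* M2) (V : Subgroup GQ) (E : Finset ℕ) (r m k c : ℕ)
    (χ : GQ → ZMod (pp * pp ^ k)) (σ : ℕ → GQ) : Prop where
  lz : Lz b k c χ
  crd : c.primeFactors.card ≤ r
  gt : ∀ q ∈ c.primeFactors, Gt b V (k + 1) E q ∧ Gq e m q ∧ Fq q (σ q) ∧ (∀ i, a i (σ q) = 1) ∧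
    ∀ g, pp ∣ (χ (g * σ q * g⁻¹)).val
  kk : ∀ i y, Cd (a i) b.Γ e.S.toFinset c.primeFactors σ (e.P pp) y → y ∈ Bl (a i) b.Γ

/-- a tower of such layers -/
def Kz (a : ι → GQ →* M2) (V : Subgroup GQ) : Prop :=
  ∃ r m : ℕ, ∀ (E : Finset ℕ) k, ∃ c χ σ, Kd b a V E r m k c χ σ

/-- the potential -/
def mu [Fintype ι] (a : ι → GQ →* M2) (v : ι → Fin 2) (pl : Pl) (S Q : Finset ℕ) : ℕ :=
  ∑ i, finrank F ↥(St (a i) pl S Q ⊓ Cm (v i + 1))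

end words

/-! ### rows -/

/-- **one step**: one more slope may be forbidden -/
def STP : Prop := ∀ (ι : Type) [Fintype ι] (a : ι → GQ →* M2) (v : ι → Fin 2) pl S (Q : Finset ℕ),
  Fintype.card ι < pp → (∀ i, Rs (a i) S ∧ Dg (a i) ∧ Nf (a i) ⊤ ∧ Ev (a i) (v i)) →
  (∀ q ∈ Q, ∀ i, U1 (a i) pl S q) → (∀ i, Dd (a i) pl S Q (v i)) ∨
  ∃ z : ι → Fin 2 → X, (∀ i j, Ty (a i) pl (S ∪ Q) j (z i j)) ∧ ∀ q ∉ Q, (∀ i, U1 (a i) pl S q) →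
    (∀ i j, z i j ∉ Bl (a i) ⊤ → z i j (pl.σ q) ≠ 0) → ∀ s : F, ∃ t : F, t ≠ s ∧
      mu a v (up pl q t.val) S (insert q Q) < mu a v pl S Q

/-- the potential is bounded -/
def BND : Prop := ∀ (ι : Type) [Fintype ι] (a : ι → GQ →* M2) (v : ι → Fin 2) S (d : ℕ),
  (∀ i, Rs (a i) S) → ∃ k : ℕ, ∀ pl (Q : Finset ℕ), Q.card ≤ d →
  (∀ q ∈ Q, ∀ i, U1 (a i) pl S q) → mu a v pl S Q ≤ k

/-- the whole group and the group of the class field -/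
def VKS : Prop := ∀ (e : Crv) (b : Fld e), Vk b b.Γ ∧ Vk b (P004K.Hc b.j 1)

/-- **the first layer** -/
def INI : Prop := ∀ (ι : Type) [Fintype ι] (e : Crv) (b : Fld e) (a : ι → GQ →* M2) V,
  Rf e a → Vk b V → ∃ d m : ℕ, ∀ (E : Finset ℕ) (k : ℕ) (pl : Pl),
  ∃ (Q : Finset ℕ) (pl' : Pl), Q.card ≤ d ∧ pl'.P = pl.P ∧ ∃ χ, La b a V E m k pl' Q χ

/-- **one more prime**: all slopes but one occur -/
def NXT : Prop := ∀ (ι : Type) [Fintype ι] (e : Crv) (b : Fld e) (a : ι → GQ →* M2) V,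
  Rf e a → Vk b V → ∃ m₀ : ℕ, ∀ m ≥ m₀, ∀ (E : Finset ℕ) (k : ℕ) (pl : Pl) (Q : Finset ℕ) χ
    (z : ι × Fin 2 → Fin 2 → X), La b a V E m k pl Q χ →
  (∀ x j, Ty (a2 b a x) pl (Sd b ∪ Q) j (z x j)) → ∃ q ∉ Q, (∀ x, U1 (a2 b a x) pl (Sd b) q) ∧
    (∀ x j, z x j ∉ Bl (a2 b a x) ⊤ → z x j (pl.σ q) ≠ 0) ∧ ∃ s : F, ∀ t : F, t ≠ s →
      ∃ χ', La b a V E m k (up pl q t.val) (insert q Q) χ'

/-- the layer in the words of groups, and as a level of a tower -/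
def LZF : Prop := ∀ (e : Crv) (b : Fld e) V E k c χ, Lz b k c χ →
  (∀ q : ℕ, q.Prime → q ∣ c → Gt b V (k + 1) E q) →
  Ly b.Γ e.S.toFinset (k + 1) c (fun g => (χ g).val) ∧ ∀ m n, 0 < m → n ≤ k →
    c.primeFactors.card ≤ m → (∀ q : ℕ, q.Prime → q ∣ c → Gq e m q) →
    b.Tw m n c fun g => (χ g).val

/-- **the export** -/
def KZF : Prop := ∀ (ι : Type) [Fintype ι] (e : Crv) (b : Fld e) (a : ι → GQ →* M2) V,
  2 * Fintype.card ι < pp → Rf e a → Vk b V → Kz b a V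

/-! ### glue -/

theorem Gq.mono {e : Crv} {m m' q : ℕ} (h : Gq e m q) (l : m ≤ m') : Gq e m' q :=
  fun d => h ((pow_dvd_pow _ l).trans d)

theorem Gt.mono {e : Crv} {b : Fld e} {V : Subgroup GQ} {n n' q : ℕ} {E E' : Finset ℕ}
    (h : Gt b V n E q) (l : n' ≤ n) (s : E' ⊆ E) : Gt b V n' E' q :=
  ⟨h.pr, fun m => h.nE (s m), h.md.of_dvd (pow_dvd_pow _ l), h.sq, h.fv⟩

/-- all levels: a power of `T` kills the cocycles -/
theorem Kd.lev (hL : LEV2) (hY : LZF) {ι : Type} {e : Crv} {b : Fld e} {a : ι → GQ →* M2}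
    {V : Subgroup GQ} {E : Finset ℕ} {r m k c : ℕ} {χ : GQ → ZMod (pp * pp ^ k)}
    {σ : ℕ → GQ} (h : Kd b a V E r m k c χ σ) {i : ι} (ra : Ra e (a i)) :
    ∀ J ≤ pp * pp ^ k, ∀ x ∈ Zx (a i) b.Γ (e.S.toFinset ∪ c.primeFactors) J
      (fun g => (χ g).val) (e.P pp), ∀ g, tb J ^ 5 • x g = 0 := fun J l =>
  have mc : ∀ q : ℕ, q.Prime → q ∣ c → q ∈ c.primeFactors := fun q p d =>
    Nat.mem_primeFactors.2 ⟨p, d, h.lz.sq.ne_zero⟩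
  hL _ _ _ ra.rs _ c _ _ σ _ (Nat.succ_pos _)
    (hY e b V E _ c χ h.lz fun q p d => (h.gt q (mc q p d)).1).1 h.lz.one (e.ov _ e.pm)
    (fun q m => ⟨Nat.dvd_of_mem_primeFactors m, (h.gt q m).2.2.1, (h.gt q m).2.2.2.1 i,
      (h.gt q m).2.2.2.2⟩) (fun q p d => .inl (mc q p d)) (.inl (h.kk i)) J
    (l.trans_eq (pow_succ' _ _).symm)

theorem kzf (hK : STP) (hB : BND) (hA : KLA) (hR : RSE) (hS : RSA) (hI : INI)
    (hN : NXT) : KZF := fun ι _ e b a V cd rf vk => by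
  obtain ⟨-, ⟨pl, hp⟩, h⟩ := hR e
  obtain ⟨-, -, mem, out, cc, sq, -⟩ := h b
  choose r1 r2 d2 n2 ev _ using fun i => hS e b (a i) (rf.ra i)
  choose j e1 e2 using ev
  set v : ι × Fin 2 → Fin 2 := fun x => ![j x.1, j x.1 + 1] x.2
  have hv : ∀ x : ι × Fin 2, Rs (a2 b a x) (Sd b) ∧ Dg (a2 b a x) ∧ Nf (a2 b a x) ⊤ ∧
      Ev (a2 b a x) (v x) := fun ⟨i, s⟩ => by
    fin_cases s
    exacts [⟨r1 i, (rf.ra i).dg, rf.nf i, e1 i⟩, ⟨r2 i, d2 i, n2 i, e2 i⟩]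
  obtain ⟨d, m, hd⟩ := hI ι e b a V rf vk
  obtain ⟨m₀, hm⟩ := hN ι e b a V rf vk
  obtain ⟨B, hb⟩ := hB _ (a2 b a) v (Sd b) d fun x => (hv x).1
  refine ⟨d + B, m + m₀, fun E k => ?_⟩
  have key : ∀ (n : ℕ) (pl' : Pl) (Q : Finset ℕ) χ, pl'.P = pl.P → La b a V E (m + m₀) k pl' Q χ →
      mu (a2 b a) v pl' (Sd b) Q ≤ n → ∃ (pl' : Pl) (Q' : Finset ℕ), ∃ χ, pl'.P = pl.P ∧
        La b a V E (m + m₀) k pl' Q' χ ∧ Q'.card ≤ Q.card + n ∧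
        ∀ x, Dd (a2 b a x) pl' (Sd b) Q' (v x) := fun n => by
    induction n using Nat.strong_induction_on with
    | _ n ih =>
      intro pl' Q χ ep la le
      rcases hK _ (a2 b a) v pl' (Sd b) Q (by simpa [mul_comm] using cd) hv
        (fun q h => (la.g3 q h).up) with dd | ⟨z, ty, hz⟩
      · exact ⟨pl', Q, χ, ep, la, by omega, dd⟩
      obtain ⟨q, qQ, u, nz, s, hs⟩ := hm _ (Nat.le_add_left _ _) E k pl' Q χ z la ty
      obtain ⟨t, ts, lt⟩ := hz q qQ u nz s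
      obtain ⟨χ', la'⟩ := hs t ts
      obtain ⟨pl'', Q', χ'', a1, a2, a3, a4⟩ := ih _ (lt.trans_le le) (up pl' q t.val) _ χ' ep la' le_rfl
      rw [Finset.card_insert_of_notMem qQ] at a3
      exact ⟨pl'', Q', χ'', a1, a2, by omega, a4⟩
  obtain ⟨Q₀, pl₀, c0, ep, χ₀, la⟩ := hd E k pl
  obtain ⟨pl', Q, χ, ep', la', c1, dd⟩ := key B pl₀ Q₀ χ₀ ep ⟨la.lz, fun q h =>
    ⟨(la.g3 q h).toGt, (la.g3 q h).up, (la.g3 q h).gq.mono (by omega)⟩, la.dz⟩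
    (hb pl₀ Q₀ c0 fun q h => (la.g3 q h).up)
  have g := la'.g3
  have pf : (∏ q ∈ Q, q).primeFactors = Q := Nat.primeFactors_prod fun q h => (g q h).pr
  have p3 : pl'.P pp = e.P pp := (congrFun ep' _).trans (hp pp e.pm)
  have s : ∀ l ∈ e.S.toFinset ∪ Q, Sq b.Γ l := fun l m => (Finset.mem_union.1 m).elim
    (fun m => sq l (List.mem_toFinset.1 m)) fun m => (g l m).sq
  refine ⟨_, χ, pl'.σ, la'.lz, by rw [pf]; omega, by
    rw [pf]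
    exact fun q h => ⟨(g q h).toGt, (g q h).gq, ⟨_, pl'.ov q (g q h).pr, pl'.fb q (g q h).pr⟩,
      fun i => ((g q h).up (i, 0)).fr, la'.dz q h⟩, fun i => ?_⟩
  have k1 : Md.Kk1 (a i) b.Γ e.S.toFinset Q pl'.σ (pl'.P pp) := Md.dsc1 (a i) pl' _ _ _ _ _ Q
    (rf.ra i).rs (r2 i) Finset.subset_union_left mem out cc (fun q h => (g q h).pr) s
    (hA _ _ pl' _ Q (j i) (j i + 1) (r1 i) (r2 i) (rf.ra i).dg (d2 i) (P014Y.Rk.ne1 _)
      (fun q h => ⟨(g q h).up (i, 0), (g q h).up (i, 1)⟩) (fun g m => Bo.tw_of _ ((mem g).1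
        (sq pp e.pm _ (pl'.ov _ pp_prime) m))) (dd (i, 0)) (dd (i, 1)))
  rw [pf, ← p3]
  exact fun y h => k1 y h.cl h.un h.ur h.tr h.u0 h.ot

end Vale.Agent.P014Z.Rk
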