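import Vale.Agent.P014Z.Rk.St

/-! # P014Z, block RK: the potential is bounded (helper17) -/

set_option autoImplicit false
set_option linter.all false

noncomputable section

namespace Vale.Agent.P014Z.Rk

open NumberField Matrix Module
open scoped Classical
open Vale.Agent.P022 (Qb GQ)
open Vale.Agent.P014U Vale.Agent.P014Y
open L2 (W M2)
open X4S (Pl)
open Mu Mu.Lo Mu.Li Mu.Gw
open Md (U1)

variable [Pp]

/-- each new prime adds at most two dimensions -/
theorem zg_le {a : GQ →* M2} {pl : Pl} {S Q : Finset ℕ} (r : Rs a S)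
    (u : ∀ q ∈ Q, U1 a pl S q) :
    finrank F (Zg a (S ∪ Q)) ≤ finrank F (Zg a S) + 2 * Q.card := by
  have r' := Md.Ki.rs_u1 r u
  haveI := zg_fin r'
  haveI := zg_fin r
  let f : Zg a (S ∪ Q) →ₗ[F] (Q → W) :=
    LinearMap.pi fun q => (LinearMap.proj (pl.τ q) : X →ₗ[F] W).comp (Zg a (S ∪ Q)).subtype
  have h1 := f.finrank_range_add_finrank_ker
  have h2 : finrank F (LinearMap.range f) ≤ 2 * Q.card := (Submodule.finrank_le _).trans_eq (by
    rw [Module.finrank_pi_fintype]
    simp [mul_comm])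
  have h3 : (LinearMap.ker f).map (Zg a (S ∪ Q)).subtype ≤ Zg a S := by
    rintro _ ⟨z, m, rfl⟩
    rw [← unq a pl S (S ∪ Q) r Finset.subset_union_left r'.pr, mem_sl]
    refine ⟨z.2, fun q k => ?_⟩
    have n : q ∈ Q := (Finset.mem_union.1 (Finset.mem_sdiff.1 k).1).resolve_left
      (Finset.mem_sdiff.1 k).2
    have v := u q n
    exact ((Md.Ki.l1 r v).ur (pl.fb q v.pr) (pl.gn q v.pr (Md.Ki.np r v))).2
      ⟨zg_cl _ z.2, congrFun (LinearMap.mem_ker.1 m) ⟨q, n⟩⟩
  have h4 := Submodule.finrank_mono h3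
  rw [Submodule.finrank_map_subtype_eq] at h4
  omega

/-- **BND** -/
theorem bnd : BND := fun ι _ a v S d r =>
  ⟨∑ i, (finrank F (Zg (a i) S) + 2 * d), fun pl Q c u => Finset.sum_le_sum fun i _ => by
    haveI := zg_fin (Md.Ki.rs_u1 (r i) fun q m => u q m i)
    exact (Submodule.finrank_mono (show _ ≤ Zg (a i) (S ∪ Q) from
      inf_le_left.trans (inf_le_left.trans inf_le_left))).trans
      ((zg_le (r i) fun q m => u q m i).trans (by omega))⟩

end Vale.Agent.P014Z.Rk
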