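import Vale.Agent.P014Z.Rk.St
import Vale.Agent.P014Y.Rk.Ls0
import Vale.Agent.P014Y.Rk.Chva

/-! # P014Z, block RK, row INI: the first layer -/

set_option autoImplicit false
set_option linter.all false

noncomputable section

namespace Vale.Agent.P014Z.Rk

open NumberField Matrix
open Vale.Agent.P022 (Qb GQ GK)
open Vale.Agent.P027M.S (Inert)
open Vale.Agent.P022D.W (dec)
open Vale.Agent.P022E.GW (Ov Fb)
open Vale.Agent.P022K.G2 (In)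
open Vale.Agent.P014U Vale.Agent.P014Y
open P004K P004R
open L2 (M2)
open X4S (Pl)
open P004F.Pt (Dh fx_mul fx_inv fx_pow)
open P014Y.F (Crv Fld)
open P014Y.F.Pt (N1 twr fx_pw fb_pm fx_of)
open P014Y.Mu (Sq)
open P014Y.Mu.Tv (spl sq_prod dec_le)

variable [Pp] {e : Crv} (b : Fld e)

namespace Ni

/-- a character with the three properties is a layer -/
theorem lz (r1 : RC1) (r2 : RC2) {k : ℕ} {T : Finset ℕ} {χ : GQ → ZMod (pp * pp ^ k)}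
    (ne : T.Nonempty) (hT : ∀ q ∈ T, q.Prime ∧ q ∉ e.S ∧ ¬ q ∣ b.δ' ∧ Sq b.Γ q)
    (D : Dh b.j (∏ l ∈ T, l) χ) (rm : ∀ l ∈ T, ∀ P, Ov l P → ∃ τ ∈ b.Γ, Inert P τ ∧ χ τ = 1)
    (un : ∀ p ∈ e.S, IsUnit (χ (b.φ p))) : Lz b k (∏ l ∈ T, l) χ := by
  have : NeZero (pp * pp ^ k) := ⟨mul_ne_zero pp_ne (pow_ne_zero _ pp_ne)⟩
  have pr (q) (m : q ∈ T) := (hT q m).1
  have sq := sq_prod pr
  have mem (q : ℕ) (hq : q.Prime) (d : q ∣ ∏ l ∈ T, l) : q ∈ T :=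
    Nat.primeFactors_prod pr ▸ Nat.mem_primeFactors.2 ⟨hq, d, sq.ne_zero⟩
  refine ⟨⟨fun g m h n => ?_, fun g m => by simp [D.ker g m]⟩, sq, ?_, fun q hq d =>
    let ⟨_, a, a', _⟩ := hT q (mem q hq d); ⟨a, a'⟩, spl b sq fun q hq d =>
    (hT q (mem q hq d)).2.2, fun q P o d => rm q (mem q o.1 d) P o,
    fun p m P o => ⟨dec_le b (e.ov p m) (b.le p m) o, fun g f => ?_⟩⟩
  · rw [D.add g m h n, ZMod.val_add, pow_succ' pp k]
    exact Nat.mod_modEq _ _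
  · obtain ⟨q, m⟩ := ne
    exact (pr q m).one_lt.trans_le (Nat.le_of_dvd (Nat.pos_of_ne_zero sq.ne_zero)
      (Finset.dvd_prod_of_mem _ m))
  · rcases fb_pm r1 r2 b.iq D (e.ov p m) (fun d => (hT p (mem p o.1 d)).2.1 m) (b.le p m)
      (b.ch.frb p m) o f with a | a <;> rw [a]
    exacts [un p m, (un p m).neg]

theorem odd (n : ℕ) : ∃ t, (pp ^ 2) ^ n = 2 * ((pp - 1) * t) + 1 := by
  obtain ⟨r, hr⟩ := pp_prime.odd_of_ne_two pp_ne_two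
  rw [hr, Nat.add_sub_cancel]
  induction n with
  | zero => exact ⟨0, rfl⟩
  | succ n ih =>
    obtain ⟨t, ht⟩ := ih
    exact ⟨t * (2 * r + 1) ^ 2 + r + 1, by rw [pow_succ, ht]; ring⟩

variable {b} {ι : Type} {a : ι → GQ →* M2} {V : Subgroup GQ}

/-- every coset meets `V` and the kernels -/
theorem ex0 (d : ∀ i, P014Y.Rk.Dg (a i)) (vk : Vk b V) (k : ℕ) {h : GQ} (mh : h ∈ b.Γ)
    (f : Fx {1} (pp ^ (k + 1)) h) : ∃ x ∈ b.Γ, Fx (N1 b.j) (pp ^ (k + 1)) x ∧ h * x ∈ V ∧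
      ∀ i, a i (h * x) = 1 := by
  obtain ⟨t, ht⟩ := odd (k + 1)
  have f1 : Fx {1} pp h := fun y hy => f y (by
    rw [pow_succ', pow_mul, Set.mem_singleton_iff.1 hy, one_pow]; rfl)
  have mγ := pow_mem mh ((pp - 1) * t)
  have fγ := fx_pow f ((pp - 1) * t)
  have aγ i : h ^ ((pp - 1) * t) ∈ (a i).ker :=
    pow_mul h _ _ ▸ pow_mem (show _ ∈ (a i).ker from P014Y.Rk.Cv.d_pow (d i) h) t
  have e1 : h * h⁻¹ ^ (pp ^ 2) ^ (k + 1) = (h ^ ((pp - 1) * t) * h ^ ((pp - 1) * t))⁻¹ := by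
    rw [ht, ← pow_add, ← two_mul, pow_succ', mul_inv_cancel_left, inv_pow]
  have f2 := fx_pw (inv_mem mh) (fx_inv f1) k
  have m2 := pow_mem (inv_mem mh) ((pp ^ 2) ^ (k + 1))
  generalize h ^ ((pp - 1) * t) = γ at *
  refine ⟨_ * ((b.c * γ * b.c⁻¹)⁻¹ * γ), mul_mem m2 (mul_mem (inv_mem (b.Γ_conj mγ _)) mγ),
    fx_mul f2 (P014Y.Rk.Ls.fx_c (pow_ne_zero _ pp_ne) mγ b.c_out b.cc fγ), ?_, fun i => ?_⟩ <;>
    rw [← mul_assoc, e1]
  · have := vk.nrm.conj_mem _ (inv_mem (vk.anti γ mγ)) (γ * γ)⁻¹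
    convert this using 1
    group
  · exact mul_mem (inv_mem (mul_mem (aγ i) (aγ i)))
      (mul_mem (inv_mem ((a i).normal_ker.conj_mem _ (aγ i) _)) (aγ i))

/-- good elements in every coset -/
theorem ex1 (ra : ∀ i, P014Y.Rk.Ra e (a i)) (vk : Vk b V) : ∃ m, ∀ k, ∀ h ∈ b.Γ,
    Fx {1} (pp ^ (k + 1)) h → ∃ x ∈ b.Γ, Fx (N1 b.j) (pp ^ (k + 1)) x ∧ h * x ∈ V ∧
      (∀ i, a i (h * x) = 1) ∧ X4F.En.Gq e.rp m (h * x) := by
  have := vk.nrm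
  have := V.quotient_finite_of_isOpen vk.opn
  obtain ⟨u, u0, u2, u3⟩ := b.ex_big
  obtain ⟨m, hm⟩ := u2.gq e.rep (N := V.index) Subgroup.index_ne_zero_of_finite
  refine ⟨m, fun k h mh f => ?_⟩
  obtain ⟨x, mx, fx, xV, xa⟩ := ex0 (fun i => (ra i).dg) vk k mh f
  obtain ⟨i, -, hi⟩ := hm (h * x) (by
    have := (PadicInt.norm_lt_one_iff_dvd _).2 ((dvd_pow_self _ k.succ_ne_zero).trans
      (Pg.Hm_two.1 (fx_mul f (fx_of fx) : _ ∈ P014T.Dr.Hm (pp ^ (k + 1)))))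
    rw [← X4S.lt_one_iff, show ∀ g, X4S.ep e.rp g = ((e.r g).det : ℤ_[pp]) from fun g =>
      (RingHom.map_det PadicInt.Coe.ringHom _).symm, Crv.r, X4M.TE.det_cyc]
    exact this)
  refine ⟨x * u ^ (V.index * i), mul_mem mx (pow_mem u0 _),
    fx_mul fx (fx_pow (fun y hy => u3 (k + 1) y (.inr ?_)) _), ?_⟩
  · obtain ⟨z, hz⟩ := P022D.Sel.KillAux.fix_range b.j _ hy.2.1
    exact ⟨z, fun z0 => hy.1 (by rw [← hz, Set.mem_singleton_iff.1 z0, map_zero]), hz⟩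
  · rw [← mul_assoc]
    exact ⟨mul_mem xV (pow_mul u _ _ ▸ pow_mem (V.pow_index_mem u) i), fun j => by
      rw [map_mul, xa, map_pow, (ra j).ker u (e.tr_one.1 (u2.tr.mono (by norm_num))), one_pow,
        one_mul], hi⟩

end Ni

open Ni in
/-- **row INI** -/
theorem ini (r1 : RC1) (r2 : RC2) (r3 : RC3) : INI := fun ι _ e b a V rf vk => by
  classical
  obtain ⟨m, hm⟩ := ex1 rf.ra vk
  obtain ⟨E', hE⟩ := vk.unr
  refine ⟨1, 2 * m + 1, fun E k pl => ?_⟩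
  have : NeZero (pp * pp ^ k) := ⟨mul_ne_zero pp_ne (pow_ne_zero _ pp_ne)⟩
  obtain ⟨q, P, ψ, χ, qT, qS, -, qδ, o, mψ, f, md, ⟨g1, g2, g3⟩, D, rm, un⟩ : ∃ (q : ℕ)
      (P : Ideal (𝓞 Qb)) (ψ : GQ) (χ : GQ → ZMod (pp * pp ^ k)), q ∉ E ∪ E' ∧ q ∉ e.S.toFinset ∧
      q ∉ (∅ : Finset ℕ) ∧ ¬ q ∣ b.δ' ∧ Ov q P ∧ ψ ∈ b.Γ ∧ Fb q P ψ ∧ q % pp ^ (k + 1) = 1 ∧
      (ψ ∈ V ∧ (∀ i, a i ψ = 1) ∧ X4F.En.Gq e.rp m ψ) ∧ Dh b.j (∏ l ∈ insert q ∅, l) χ ∧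
      (∀ l ∈ insert q (∅ : Finset ℕ), ∀ P', Ov l P' → ∃ τ ∈ b.Γ, Inert P' τ ∧ χ τ = 1) ∧
      ∀ p ∈ e.S.toFinset, χ (b.φ p) = 1 := by
    rw [← pow_succ' pp k]
    exact twr (n := k) r2 r3 b.kd (P := e.P) (fun p m =>
      have m := List.mem_toFinset.1 m
      ⟨e.ov p m, b.le p m, b.ch.frb p m⟩) (List.mem_toFinset.2 e.pm) (fun _ => 1) (by simp)
      (U := V ⊓ (⨅ i, (a i).ker) ⊓ e.rep.Kn (m + 1)) (by
        rw [Subgroup.coe_inf, Subgroup.coe_inf, Subgroup.coe_iInf]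
        exact (vk.opn.inter (isOpen_iInter_of_finite fun i => (rf.ra i).rs.opn)).inter
          (e.rep.Kn_open _))
      (G := fun g => g ∈ V ∧ (∀ i, a i g = 1) ∧ X4F.En.Gq e.rp m g)
      (fun g u h t => ⟨mul_mem t.1 h.1.1, fun i => by
        rw [map_mul, t.2.1, show a i u = 1 from Subgroup.mem_iInf.1 h.1.2 i, one_mul],
        t.2.2.mul e.rep h.2⟩) (hm k) _
  have qS' := mt List.mem_toFinset.2 qS
  rw [Finset.mem_union, not_or] at qT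
  have sq : Sq b.Γ q := fun P' o' => Wr.dec_gk b.kd o (e.ne_two qS') qδ f mψ o'
  have L := lz b r1 r2 (Finset.insert_nonempty _ _) (by simpa using ⟨o.1, qS', qδ, sq⟩) D rm
    fun p m => un p (List.mem_toFinset.2 m) ▸ isUnit_one
  have fa (P' φ) (o' : Ov q P') (f' : Fb q P' φ) : φ ∈ V ∧ ∀ i, a i φ = 1 := by
    obtain ⟨x, s, i, rfl⟩ := Wr.fb_cj o f ⟨P', o'.2.1, o'.2.2, f'⟩
    exact ⟨vk.nrm.conj_mem _ (mul_mem (hE ⟨q, qT.2, P, o, i⟩) g1) _, fun j =>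
      (a j).normal_ker.conj_mem _ (mul_mem ((rf.ra j).rs.inert o qS s i) (g2 j)) _⟩
  have ov := pl.ov q o.1
  obtain ⟨t, mt', it, ct⟩ := rm q (Finset.mem_insert_self _ _) _ ov
  have ft := Md.Lo.fb_mul ov (pl.fb q o.1)
    ((P022.H443.inP _).pow_mem it (-χ (pl.σ q)).val)
  have mf {φ} (f' : Fb q (pl.P q) φ) : φ ∈ b.Γ := sq _ ov (P022D.W.phi_mem o.1 ov.2.1 f')
  have z : χ (pl.σ q * t ^ (-χ (pl.σ q)).val) = 0 := by
    rw [D.add _ (mf (pl.fb q o.1)) _ (pow_mem mt' _), D.pow mt', ct, nsmul_one,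
      ZMod.natCast_zmod_val, add_neg_cancel]
  generalize pl.σ q * t ^ (-χ (pl.σ q)).val = σ at ft z
  refine ⟨insert q ∅, { pl with
      σ := Function.update pl.σ q σ
      fb := fun l hl => by
        by_cases h : l = q
        · rw [h, Function.update_self]; exact ft
        · rw [Function.update_of_ne h]; exact pl.fb l hl }, by simp, rfl, χ, L, ?_, ?_⟩ <;>
    simp only [insert_empty_eq, Finset.mem_singleton, forall_eq, Function.update_self]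
  · have s1 := (fa _ _ ov ft).2
    refine ⟨⟨o.1, qT.1, md.trans (Nat.mod_eq_of_lt (F.Pt.one_lt_pow' k)).symm, sq,
      fun P' φ o' f' => (fa P' φ o' f').1⟩, fun x => ⟨o.1, fun c => (Finset.mem_union.1 c).elim qS
        fun c => qδ (Nat.dvd_of_mem_primeFactors c), ?_⟩,
      F.Pt.gq_nd o qS' f g3 (Nat.lt_succ_self _)⟩
    obtain ⟨i, s⟩ := x
    show a2 b a (i, s) (Function.update pl.σ q σ q) = 1
    rw [Function.update_self]
    fin_cases s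
    exacts [s1 i, (Bo.tw_of (a i) ((b.kd.gk _).1 (mf ft))).trans (s1 i)]
  · intro g
    rcases D.cj r1 b.iq (zero_lt_one.trans L.one) g (mf ft) with h | h <;> simp [h, z]

end Vale.Agent.P014Z.Rk
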