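import Vale.Agent.P014Z.Rk.St
import Vale.Agent.P014Y.Md.Tw1
import Vale.Agent.P014Y.Mu.Lzy
import Vale.Agent.P014Y.F.Pt.Dh
import Vale.Agent.P014Y.F.Pt.Pe

/-! # P014Z, block RK, row LZF: layers at every odd prime (helper24) -/

set_option autoImplicit false
set_option linter.all false

noncomputable section

namespace Vale.Agent.P014Z.Rk

open NumberField Matrix
open Vale.Agent.P022 (Qb GQ GK)
open Vale.Agent.P027M.S (Inert)
open Vale.Agent.P022D.W (dec)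
open Vale.Agent.P022E.GW (Ov Fb)
open Vale.Agent.P014U
open P004K P004R
open P004F.Pt (Dh)
open P014Y.F (Crv Fld)
open P014Y.F.Pt (N1 twr fb_pm one_lt_pow')
open P014Y.Mu (Sq Ly)
open P014Y.Mu.Tv (dec_le spl sq_prod)

variable [Pp] {e : Crv} {b : Fld e}

namespace Lf

theorem lt1 (k : ℕ) : 1 < pp * pp ^ k := pow_succ' pp k ▸ one_lt_pow' k

instance nz (k : ℕ) : NeZero (pp * pp ^ k) := ⟨(zero_lt_one.trans (lt1 k)).ne'⟩

theorem val1 (k : ℕ) : (1 : ZMod (pp * pp ^ k)).val = 1 :=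
  have : Fact (1 < pp * pp ^ k) := ⟨lt1 k⟩
  ZMod.val_one _

theorem unit_iff {k : ℕ} {x : ZMod (pp * pp ^ k)} : IsUnit x ↔ ¬ pp ∣ x.val := by
  rw [← ZMod.natCast_zmod_val x, ZMod.isUnit_iff_coprime, ZMod.natCast_zmod_val]
  generalize x.val = n
  rw [← pow_succ', Nat.coprime_pow_right_iff k.succ_pos, Nat.coprime_comm,
    pp_prime.coprime_iff_not_dvd]

theorem typ {q : ℕ} (hq : q.Prime) (s : Sq b.Γ q) (o : q ∉ e.S) (d : ¬ q ∣ b.δ') :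
    Typ b.K q (q - 1) := by
  obtain ⟨P, v⟩ := P004R.Mu.ex_pl hq
  obtain ⟨φ, f⟩ := P022D.W.exists_phi v.1 v.2.1 v.2.2
  obtain ⟨ω, t, qd⟩ := P004F.Pt.ex_q b.j b.iq
  have q2 : q ≠ 2 := fun c => o (c ▸ e.two)
  refine P004F.Pt.typ' b.kd qd b.th hq q2 ?_
  rw [P004R.Cb.jac v q2 (fun k => d (by exact_mod_cast dvd_neg.1 k)) f,
    (b.kd.gk _).1 (s P v (P022D.W.phi_mem v.1 v.2.1 f))]
  rfl

end Lf

open Lf

theorem Lz.dh {k c : ℕ} {χ : GQ → ZMod (pp * pp ^ k)} (h : Lz b k c χ) : Dh b.j c χ :=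
  ⟨fun x a y a' => by
    simpa only [Nat.cast_add, ZMod.natCast_zmod_val] using (ZMod.natCast_eq_natCast_iff _ _
      (pp * pp ^ k)).2 ((h.ad.add x a y a').of_dvd (pow_succ' pp k).symm.dvd),
    fun x a => by
      simpa only [ZMod.natCast_zmod_val] using (ZMod.natCast_eq_zero_iff _ (pp * pp ^ k)).2
        ((pow_succ' pp k).symm.dvd.trans (h.ad.ker x a))⟩

/-- **row LZF** -/
theorem lzf (r1 : RC1) (r2 : RC2) : LZF := fun e b V E k c χ h gt => by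
  have c0 := zero_lt_one.trans h.one
  refine ⟨⟨c0.ne', h.ad.add, ⟨_, (r1 b.K b.j b.iq c c0).2.1, fun g _ m => h.ad.ker g m⟩,
    fun l P o n g m i => h.ad.ker g (P004F.Ra.unr_hc r2 b.iq c0 o n m i),
    fun q hq d => ⟨mt List.mem_toFinset.1 (h.out q hq d).1, (gt q hq d).sq, (gt q hq d).md⟩,
    fun q P o d => ?_, fun p m P o => (h.fro p (List.mem_toFinset.1 m) P o).imp_right
      fun u g f => unit_iff.1 (u g f)⟩, fun m n m0 nk crd H => ?_⟩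
  · obtain ⟨t, -, i, a⟩ := h.ram q P o d
    exact ⟨t, i, by simp only [a, val1]; rfl⟩
  have dv := pow_dvd_pow pp (nk.trans k.le_succ)
  refine ⟨⟨fun g a k a' => (h.ad.add g a k a').of_dvd dv, fun g a => dv.trans (h.ad.ker g a)⟩,
    h.sq, h.one, crd, fun q a => ?_, fun q a P o => ?_⟩
  · obtain ⟨hq, d, -⟩ := Nat.mem_primeFactors.1 a
    obtain ⟨o, o'⟩ := h.out q hq d
    exact ⟨o, o', ⟨_, typ hq (gt q hq d).sq o o',
      dv.trans ((Nat.modEq_iff_dvd' hq.one_le).1 (gt q hq d).md.symm)⟩, H q hq d⟩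
  · obtain ⟨t, -, i, u⟩ := h.ram q P o (Nat.dvd_of_mem_primeFactors a)
    refine ⟨t, i, ?_, fun g _ => ⟨(χ g).val, ?_⟩⟩ <;> simp only [u, val1]
    · exact fun k => absurd (Nat.dvd_one.1 k) (Nat.one_lt_pow m0.ne' one_lt).ne'
    · rw [mul_one]

variable (b)

/-- a character with the three properties is a layer -/
theorem lz (r1 : RC1) (r2 : RC2) {k : ℕ} {T : Finset ℕ} {χ : GQ → ZMod (pp * pp ^ k)}
    (ne : T.Nonempty) (hT : ∀ q ∈ T, q.Prime ∧ q ∉ e.S ∧ ¬ q ∣ b.δ' ∧ Sq b.Γ q)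
    (D : Dh b.j (∏ l ∈ T, l) χ) (rm : ∀ l ∈ T, ∀ P, Ov l P → ∃ τ ∈ b.Γ, Inert P τ ∧ χ τ = 1)
    (un : ∀ p ∈ e.S, IsUnit (χ (b.φ p))) : Lz b k (∏ l ∈ T, l) χ := by
  have pr (q) (m : q ∈ T) := (hT q m).1
  have sq := sq_prod pr
  have mem (q : ℕ) (hq : q.Prime) (d : q ∣ ∏ l ∈ T, l) : q ∈ T :=
    Nat.primeFactors_prod pr ▸ Nat.mem_primeFactors.2 ⟨hq, d, sq.ne_zero⟩
  refine ⟨⟨fun g m h n => ?_, fun g m => by simp [D.ker g m]⟩, sq, ?_, fun q hq d =>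
    let ⟨_, a, a', _⟩ := hT q (mem q hq d); ⟨a, a'⟩, spl b sq fun q hq d =>
    let ⟨_, _, a, a'⟩ := hT q (mem q hq d); ⟨a, a'⟩, fun q P o d => rm q (mem q o.1 d) P o,
    fun p m P o => ⟨dec_le b (e.ov p m) (b.le p m) o, fun g f => ?_⟩⟩
  · rw [D.add g m h n, ZMod.val_add, pow_succ' pp k]
    exact Nat.mod_modEq _ _
  · obtain ⟨q, m⟩ := ne
    exact (pr q m).one_lt.trans_le (Nat.le_of_dvd (Nat.pos_of_ne_zero sq.ne_zero)
      (Finset.dvd_prod_of_mem _ m))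
  · rcases fb_pm r1 r2 b.iq D (e.ov p m) (fun d => (hT p (mem p o.1 d)).2.1 m) (b.le p m)
      (b.ch.frb p m) o f with a | a <;> rw [a]
    exacts [un p m, (un p m).neg]

/-- **one new prime**: a character of conductor `q` with prescribed values at `S` and `Q` -/
theorem tw0 (r2 : RC2) (r3 : RC3) {U : Subgroup GQ} (hU : IsOpen (U : Set GQ))
    {G : GQ → Prop} (stb : ∀ g, ∀ u ∈ U, G g → G (g * u)) (k : ℕ)
    (ex : ∀ h ∈ b.Γ, Fx {1} (pp ^ (k + 1)) h →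
      ∃ x ∈ b.Γ, Fx (N1 b.j) (pp ^ (k + 1)) x ∧ G (h * x)) (E Q : Finset ℕ)
    (P : ℕ → Ideal (𝓞 Qb)) (σ : ℕ → GQ)
    (hQ : ∀ l ∈ Q, l ∉ e.S ∧ Sq b.Γ l ∧ Ov l (P l) ∧ Fb l (P l) (σ l))
    (u v : ℕ → ZMod (pp * pp ^ k)) :
    ∃ (q : ℕ) (P₀ : Ideal (𝓞 Qb)) (ψ : GQ) (χ : GQ → ZMod (pp * pp ^ k)), q ∉ E ∧ q ∉ e.S ∧ q ∉ Q ∧
      ¬ q ∣ b.δ' ∧ Ov q P₀ ∧ Fb q P₀ ψ ∧ q ≡ 1 [MOD pp ^ (k + 1)] ∧ Sq b.Γ q ∧ G ψ ∧ Dh b.j q χ ∧
      (∀ P', Ov q P' → ∃ τ ∈ b.Γ, Inert P' τ ∧ χ τ = 1) ∧ (∀ p ∈ e.S, χ (b.φ p) = u p) ∧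
      ∀ l ∈ Q, χ (σ l) = v l := by
  classical
  revert u v
  rw [← pow_succ' pp k]
  intro u v
  obtain ⟨q, P₀, ψ, χ, qE, qS, -, qδ, o, m, f, md, t, D, rm, un⟩ := twr (n := k) r2 r3 b.kd
    (S := e.S.toFinset ∪ Q) (Q := ∅) (P := fun p => if p ∈ e.S then e.P p else P p)
    (φ := fun p => if p ∈ e.S then b.φ p else σ p) (fun p m => by
      split_ifs with a
      · exact ⟨e.ov p a, b.le p a, b.ch.frb p a⟩
      · have m := hQ p ((Finset.mem_union.1 m).resolve_left (mt List.mem_toFinset.1 a))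
        exact ⟨m.2.2.1, m.2.1 _ m.2.2.1, m.2.2.2⟩)
    (Finset.mem_union_left _ (List.mem_toFinset.2 e.pm)) (fun p => if p ∈ e.S then u p else v p)
    (by simp) hU stb ex E
  rw [Finset.mem_union, not_or, List.mem_toFinset] at qS
  rw [Finset.prod_insert (Finset.notMem_empty _), Finset.prod_empty, mul_one] at D
  refine ⟨q, P₀, ψ, χ, qE, qS.1, qS.2, qδ, o, f, md.trans (Nat.mod_eq_of_lt (one_lt_pow' k)).symm,
    fun P' o' => Wr.dec_gk b.kd o (fun c => qS.1 (c ▸ e.two)) qδ f m o', t, D,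
    rm q (Finset.mem_insert_self _ _), fun p a => ?_, fun l a => ?_⟩
  · simpa only [if_pos a] using un p (Finset.mem_union_left _ (List.mem_toFinset.2 a))
  · simpa only [if_neg (hQ l a).1] using un l (Finset.mem_union_right _ a)

end Vale.Agent.P014Z.Rk
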