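import Vale.Agent.P014Z.Rk.St
import Vale.Agent.P014Y.Rk.Lst

/-! # P014Z, block RK, row NXT: the tower half (helper55) -/

set_option autoImplicit false
set_option linter.all false

noncomputable section

namespace Vale.Agent.P014Z.Rk

open NumberField Matrix
open scoped Classical
open Vale.Agent.P022 (Qb GQ GK)
open Vale.Agent.P027M.S (Inert)
open Vale.Agent.P022D.W (dec inP_le_dec)
open Vale.Agent.P022E.GW (Ov Fb)
open Vale.Agent.P014U Vale.Agent.P014Y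
open L2 (W M2)
open X4S (Pl)
open P004K P004R
open P004F.Pt (Dh fx_mul fx_pow)
open P014Y.F (Crv Fld)
open P014Y.F.Pt (N1 fx_of twr fb_pm)
open Mu (F X Sq Sd Bl rb)
open P014Y.Rk (Ty RSA)
open Md.Ki (up up_ne up_eq)

variable [Pp]

/-- the values of the classes -/
def VALS : Prop := ∀ (ι : Type) [Fintype ι] (e : Crv) (b : Fld e) (a : ι → GQ →* M2) V,
  Rf e a → Vk b V → ∀ (m : ℕ) (E : Finset ℕ) (k : ℕ) (pl : Pl) (Q : Finset ℕ) χ
    (z : ι × Fin 2 → Fin 2 → X), La b a V E m k pl Q χ →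
  (∀ x j, Ty (a2 b a x) pl (Sd b ∪ Q) j (z x j)) → ∀ h ∈ b.Γ, Fx {1} (pp ^ (k + 1)) h →
  ∃ u ∈ b.Γ, Fx (N1 b.j) (pp ^ (k + 1)) u ∧ h * u ∈ V ∧ (∀ i, a i (h * u) = 1) ∧
    ¬ pp ∣ (χ (h * u)).val ∧ ∀ x j, z x j ∉ Bl (a2 b a x) ⊤ → z x j (h * u) ≠ 0

namespace Nx

variable {e : Crv} (b : Fld e) {k c : ℕ} {χ : GQ → ZMod (pp * pp ^ k)}

instance nz (k : ℕ) : NeZero (pp * pp ^ k) := ⟨mul_ne_zero pp_ne (pow_ne_zero _ pp_ne)⟩

/-- reduction modulo `pp` -/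
def rd (k : ℕ) : ZMod (pp * pp ^ k) →+* F := ZMod.castHom (dvd_mul_right _ _) F

theorem rd_eq (y : ZMod (pp * pp ^ k)) : rd k y = (y.val : F) := by
  rw [rd, ZMod.castHom_apply, ZMod.natCast_val]

theorem dv (y : ZMod (pp * pp ^ k)) : pp ∣ y.val ↔ rd k y = 0 := by
  rw [rd_eq, ZMod.natCast_eq_zero_iff]

variable {b} in
theorem dh (L : Lz b k c χ) : Dh b.j c χ := ⟨fun g m h n => by
    have := L.ad.add g m h n
    rwa [pow_succ', ← ZMod.natCast_eq_natCast_iff, Nat.cast_add, ZMod.natCast_zmod_val,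
      ZMod.natCast_zmod_val, ZMod.natCast_zmod_val] at this, fun g m => by
    have := L.ad.ker g m
    rwa [pow_succ', ← ZMod.natCast_eq_zero_iff, ZMod.natCast_zmod_val] at this⟩

variable {b} in
theorem dr (D : Dh b.j c χ) : Dh b.j c fun g => rd k (χ g) :=
  ⟨fun g m h n => by rw [D.add g m h n, map_add], fun g m => by rw [D.ker g m, map_zero]⟩

/-- a character with the three properties is a layer -/
theorem lz (r1 : RC1) (r2 : RC2) {T : Finset ℕ} (ne : T.Nonempty)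
    (hT : ∀ q ∈ T, q.Prime ∧ q ∉ e.S ∧ ¬ q ∣ b.δ' ∧ Sq b.Γ q)
    (D : Dh b.j (∏ l ∈ T, l) χ) (rm : ∀ l ∈ T, ∀ P, Ov l P → ∃ τ ∈ b.Γ, Inert P τ ∧ χ τ = 1)
    (un : ∀ p ∈ e.S, IsUnit (χ (b.φ p))) : Lz b k (∏ l ∈ T, l) χ := by
  have pr (q) (m : q ∈ T) := (hT q m).1
  have sq := Mu.Tv.sq_prod pr
  have mem (q : ℕ) (hq : q.Prime) (d : q ∣ ∏ l ∈ T, l) : q ∈ T :=
    Nat.primeFactors_prod pr ▸ Nat.mem_primeFactors.2 ⟨hq, d, sq.ne_zero⟩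
  refine ⟨⟨fun g m h n => ?_, fun g m => by simp [D.ker g m]⟩, sq, ?_, fun q hq d =>
    let ⟨_, a, a', _⟩ := hT q (mem q hq d); ⟨a, a'⟩, Mu.Tv.spl b sq fun q hq d =>
    let ⟨_, _, a, a'⟩ := hT q (mem q hq d); ⟨a, a'⟩, fun q P o d => rm q (mem q o.1 d) P o,
    fun p m P o => ⟨Mu.Tv.dec_le b (e.ov p m) (b.le p m) o, fun g f => ?_⟩⟩
  · rw [D.add g m h n, ZMod.val_add, pow_succ' pp k]
    exact Nat.mod_modEq _ _
  · obtain ⟨q, m⟩ := ne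
    exact (pr q m).one_lt.trans_le (Nat.le_of_dvd (Nat.pos_of_ne_zero sq.ne_zero)
      (Finset.dvd_prod_of_mem _ m))
  · rcases fb_pm r1 r2 b.iq D (e.ov p m) (fun d => (hT p (mem p o.1 d)).2.1 m) (b.le p m)
      (b.ch.frb p m) o f with a | a <;> rw [a]
    exacts [un p m, (un p m).neg]

theorem zp {a : GQ →* M2} {z : X} (h : ∀ g h, z (g * h) = z g + a g *ᵥ z h) {κ : GQ}
    (e : a κ = 1) (i : ℕ) : z (κ ^ (pp * i)) = 0 := by
  have q (n : ℕ) : z (κ ^ n) = (n : F) • z κ := by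
    induction n with
    | zero => simpa using h 1 1
    | succ n ih => rw [pow_succ', h, ih, e, one_mulVec, Nat.cast_succ, add_smul, one_smul, add_comm]
  rw [q, Nat.cast_mul, ZMod.natCast_self, zero_mul, zero_smul]

/-- good elements in every coset -/
theorem ex_gq {V : Subgroup GQ} (vk : Vk b V) : ∃ (m : ℕ) (κ : GQ), κ ∈ V ∧ rb e κ = 1 ∧
    (∀ n, Fx (N1 b.j) (pp ^ n) κ) ∧
    ∀ g, Fx {1} pp g → ∃ i, X4F.En.Gq e.rp m (g * κ ^ (pp * i)) := by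
  obtain ⟨k, k0, k2, k3⟩ := b.ex_big
  have := vk.nrm
  have : Finite (GQ ⧸ V) := V.quotient_finite_of_isOpen vk.opn
  have i0 : V.index ≠ 0 := Subgroup.index_ne_zero_of_finite
  obtain ⟨m, hm⟩ := k2.gq e.rep (mul_ne_zero i0 pp_ne)
  refine ⟨m, k ^ V.index, V.pow_index_mem k, by
    rw [map_pow, show rb e k = 1 from e.tr_one.1 (k2.tr.mono (by norm_num)), one_pow],
    fun n => fx_pow (fun y hy => k3 n y (.inr ?_)) _,
    fun g f => (hm g ?_).imp fun _ a => by rw [← pow_mul, ← mul_assoc]; exact a.2⟩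
  · obtain ⟨x, h⟩ := P022D.Sel.KillAux.fix_range b.j _ hy.2.1
    exact ⟨x, fun z => hy.1 (by rw [← h, Set.mem_singleton_iff.1 z, map_zero]), h⟩
  · have := (PadicInt.norm_lt_one_iff_dvd _).2 ((dvd_pow_self _ one_ne_zero).trans
      (Pg.Hm_two.1 (show g ∈ P014T.Dr.Hm (pp ^ 1) from fun y hy => f y (by rwa [pow_one] at hy))))
    rw [← X4S.lt_one_iff, show X4S.ep e.rp g = ((e.r g).det : ℤ_[pp]) from
      (RingHom.map_det PadicInt.Coe.ringHom _).symm, Crv.r, X4M.TE.det_cyc]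
    exact this

/-- a character of prime conductor which vanishes at the given primes -/
theorem tw0 (r2 : RC2) (r3 : RC3) (k : ℕ) (Q : Finset ℕ) (pl : Pl)
    (hQ : ∀ q ∈ Q, q.Prime ∧ Sq b.Γ q) {U : Subgroup GQ} (hU : IsOpen (U : Set GQ))
    {G : GQ → Prop} (stb : ∀ g, ∀ u ∈ U, G g → G (g * u))
    (ex : ∀ h ∈ b.Γ, Fx {1} (pp ^ (k + 1)) h →
      ∃ x ∈ b.Γ, Fx (N1 b.j) (pp ^ (k + 1)) x ∧ G (h * x)) (T : Finset ℕ) :
    ∃ (q : ℕ) (P : Ideal (𝓞 Qb)) (ψ : GQ) (ε : GQ → ZMod (pp * pp ^ k)), q ∉ T ∧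
      q ∉ e.S.toFinset ∪ Q ∧ ¬ q ∣ b.δ' ∧ Ov q P ∧ ψ ∈ b.Γ ∧ Fb q P ψ ∧ q % pp ^ (k + 1) = 1 ∧ G ψ ∧
      Dh b.j q ε ∧ (∀ P', Ov q P' → ∃ τ ∈ b.Γ, Inert P' τ ∧ ε τ = 1) ∧
      ∀ p ∈ e.S.toFinset ∪ Q, ε (if p ∈ e.S then b.φ p else pl.σ p) = 0 := by
  rw [← pow_succ' pp k]
  obtain ⟨q, P, ψ, ε, a1, a2, -, a3, a4, a5, a6, a7, a8, D, rm, un⟩ := twr (n := k) (Q := ∅) r2 r3
    b.kd (S := e.S.toFinset ∪ Q) (P := fun p => if p ∈ e.S then e.P p else pl.P p)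
    (φ := fun p => if p ∈ e.S then b.φ p else pl.σ p) (fun p m => by
      split_ifs with a
      · exact ⟨e.ov p a, b.le p a, b.ch.frb p a⟩
      · have m := hQ p ((Finset.mem_union.1 m).resolve_left (mt List.mem_toFinset.1 a))
        exact ⟨pl.ov p m.1, m.2 _ (pl.ov p m.1), pl.fb p m.1⟩)
    (Finset.mem_union_left _ (List.mem_toFinset.2 e.pm)) (fun _ => 0) (by simp) hU stb ex T
  rw [Finset.prod_insert (Finset.notMem_empty _), Finset.prod_empty, mul_one] at D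
  exact ⟨q, P, ψ, ε, a1, a2, a3, a4, a5, a6, a7, a8, D, rm q (Finset.mem_insert_self _ _), un⟩

end Nx

open Nx

/-- **row NXT** from the values -/
theorem nxt_of (r1 : RC1) (r2 : RC2) (r3 : RC3) (hS : RSA) (hv : VALS) : NXT :=
    fun ι _ e b a V rf vk => by
  obtain ⟨m₀, κ, κV, κ1, κf, κq⟩ := ex_gq b vk
  obtain ⟨E₀, hE⟩ := vk.unr
  have rs : ∀ x, Mu.Rs (a2 b a x) (Sd b) ∧ P014Y.Rk.Dg (a2 b a x) := fun ⟨i, s⟩ => by
    obtain ⟨r, r', d', -⟩ := hS e b _ (rf.ra i)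
    fin_cases s
    exacts [⟨r, (rf.ra i).dg⟩, ⟨r', d'⟩]
  have ea x {g} (m : g ∈ b.Γ) : a2 b a x g = a x.1 g := by
    obtain ⟨i, s⟩ := x
    fin_cases s
    exacts [rfl, Bo.tw_of _ ((b.kd.gk g).1 m)]
  refine ⟨2 * m₀ + 1, fun m hm E k pl Q χ z la ty => ?_⟩
  have L := la.lz
  have c0 := zero_lt_one.trans L.one
  have D := dh L
  have hQ q (h : q ∈ Q) := (la.g3 q h).toGt
  have co x j g h : z x j (g * h) = z x j g + a2 b a x g *ᵥ z x j h :=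
    (ty x j).1.1.1 g trivial h trivial
  choose U lU hU using fun y : (ι × Fin 2) × Fin 2 => (ty y.1 y.2).1.1.2.2
  have oU : IsOpen ((⨅ y : (ι × Fin 2) × Fin 2, (a2 b a y.1).ker ⊓ U y : Subgroup GQ) : Set GQ) := by
    rw [Subgroup.coe_iInf]
    exact isOpen_iInter_of_finite fun y => (rs y.1).1.opn.inter (lU y).opn
  have dn {g} (f : Fx {1} (pp ^ (k + 1)) g) : Fx {1} pp g := fun y hy => f y (by
    rw [pow_succ', pow_mul, Set.mem_singleton_iff.1 hy, one_pow]; rfl)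
  obtain ⟨q, P₀, ψ, ε, qT, qQ, qδ, o, ψΓ, f, md, ⟨g1, g2, g3, g4, g5⟩, D', rm, un⟩ :=
    tw0 b r2 r3 k Q pl (fun q h => ⟨(hQ q h).pr, (hQ q h).sq⟩)
    (U := (V ⊓ Hc b.j (∏ q ∈ Q, q)) ⊓ (e.rep.Kn (m₀ + 1) ⊓
      ⨅ y : (ι × Fin 2) × Fin 2, (a2 b a y.1).ker ⊓ U y))
    ((vk.opn.inter (r1 _ b.j b.iq _ c0).2.1).inter ((e.rep.Kn_open _).inter oU))
    (G := fun ψ => ψ ∈ V ∧ (∀ i, a i ψ = 1) ∧ rd k (χ ψ) ≠ 0 ∧
      (∀ x j, z x j ∉ Bl (a2 b a x) ⊤ → z x j ψ ≠ 0) ∧ X4F.En.Gq e.rp m₀ ψ)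
    (fun g u ⟨⟨u1, u2⟩, u3, u4⟩ ⟨g1, g2, g3, g4, g5⟩ =>
      have u5 := Subgroup.mem_iInf.1 u4
      ⟨mul_mem g1 u1, fun i => by rw [map_mul, g2, one_mul]; exact (u5 ((i, 0), 0)).1,
        by rwa [D.mul_ker (vk.le g1) u2], fun x j n => by
          rw [co, hU (x, j) u trivial (u5 (x, j)).2, mulVec_zero, add_zero]
          exact g4 x j n, g5.mul e.rep u3⟩)
    (fun h hΓ hf => by
      obtain ⟨u, u1, u2, u3, u4, u5, u6⟩ := hv ι e b a V rf vk m E k pl Q χ z la ty h hΓ hf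
      obtain ⟨i, hi⟩ := κq _ (dn (fx_mul hf (fx_of u2)))
      have κΓ := vk.le κV
      refine ⟨_, mul_mem u1 (pow_mem κΓ (pp * i)), fx_mul u2 (fx_pow (κf _) _), ?_⟩
      rw [← mul_assoc]
      exact ⟨mul_mem u3 (pow_mem κV _), fun i => by
        rw [map_mul, u4, map_pow, (rf.ra i).ker κ κ1, one_pow, one_mul], by
        rw [(dr D).add _ (vk.le u3) _ (pow_mem κΓ _), (dr D).pow κΓ, nsmul_eq_mul, Nat.cast_mul,
          ZMod.natCast_self, zero_mul, zero_mul, add_zero]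
        exact mt (dv _).2 u5, fun x j n => by
        rw [co, zp (co x j) ((ea x κΓ).trans ((rf.ra _).ker κ κ1)), mulVec_zero, add_zero]
        exact u6 x j n, hi⟩) (E ∪ E₀ ∪ Sd b)
  simp only [Finset.mem_union, not_or, List.mem_toFinset] at qT qQ
  obtain ⟨⟨qE, qE₀⟩, qS⟩ := qT
  obtain ⟨qe, qQ⟩ := qQ
  have qS : q ∉ Sd b := fun c => (Finset.mem_union.1 c).elim (mt List.mem_toFinset.1 qe)
    fun c => qδ (Nat.dvd_of_mem_primeFactors c)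
  have ov := pl.ov q o.1
  have q3 : q ≠ pp := e.ne_pp qe
  have sq : Sq b.Γ q := fun P' o' => Wr.dec_gk b.kd o (e.ne_two qe) qδ f ψΓ o'
  have gt : Gt b V (k + 1) E q := ⟨o.1, qE, md.trans (Nat.mod_eq_of_lt (F.Pt.one_lt_pow' k)).symm,
    sq, fun P φ o' f' => by
      obtain ⟨w, s, i, rfl⟩ := Wr.fb_cj o f ⟨P, o'.2.1, o'.2.2, f'⟩
      exact vk.nrm.conj_mem _ (mul_mem (hE ⟨q, qE₀, _, o, i⟩) g1) w⟩
  have gq := F.Pt.gq_nd o qe f g5 (n := m) hm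
  have qc : ¬ q ∣ ∏ l ∈ Q, l := fun d => qQ (Nat.primeFactors_prod (fun l h => (hQ l h).pr) ▸
    Nat.mem_primeFactors.2 ⟨o.1, d, c0.ne'⟩)
  have iΓ {P g} (o : Ov q P) (i : Inert P g) : g ∈ b.Γ := sq _ o (inP_le_dec i)
  have i0 {P g} (o : Ov q P) (i : Inert P g) : χ g = 0 :=
    D.ker _ (Wr.inert_hc r2 b.iq o qc (iΓ o i) i)
  have σΓ l (p : l.Prime) (s : Sq b.Γ l) : pl.σ l ∈ b.Γ :=
    s _ (pl.ov l p) (P022D.W.phi_mem p (pl.ov l p).2.1 (pl.fb l p))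
  have s0 : rd k (χ (pl.σ q)) ≠ 0 := by
    rcases fb_pm r1 r2 b.iq D o qc (sq _ o) f ov (pl.fb q o.1) with a | a <;> rw [a]
    exacts [g3, by rwa [map_neg, neg_ne_zero]]
  obtain ⟨w, s, i, rfl⟩ := Wr.fb_cj ov (pl.fb q o.1) ⟨P₀, o.2.1, o.2.2, f⟩
  have tr x (y : X) j := P014Y.Rk.Ls.trf (x := y) (T := Sd b ∪ Q) (j := j) (rs x).2 (rs x).1 ov qS i
    ((ea x ψΓ).trans (g2 _))
  have u1 x : Md.U1 (a2 b a x) pl (Sd b) q := ⟨o.1, qS, (tr x 0 0).1⟩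
  obtain ⟨V', lV, hV⟩ := P022K.G2.ex_lv' (r1 _ b.j b.iq _ o.1.pos).2.1
  obtain ⟨n, hn⟩ := Mu.Lv.tame ov q3 (fun g h p s => (dr D').add g (iΓ ov p) h (iΓ ov s)) lV
    fun w _ m => (dr D').ker w (hV m)
  have τ1 := (pl.gn q o.1 q3).1
  have tn := hn _ τ1
  rw [(pl.gn q o.1 q3).2, one_smul] at tn
  have n0 : n ≠ 0 := fun c => by
    obtain ⟨t, -, t1, t2⟩ := rm _ ov
    have := hn t t1
    rw [c, smul_zero, t2, map_one] at this
    exact one_ne_zero this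
  refine ⟨q, qQ, u1, fun x j nb => ?_, -rd k (ε (pl.σ q)) / n, fun t ts => ?_⟩
  · obtain ⟨i', h⟩ := Function.ne_iff.1 (g4 x j nb)
    exact (tr x _ i').2 (ty x j).1.1 (fun c => (Finset.mem_union.1 c).elim qS qQ) h
  have w0 : rd k (ε (pl.σ q)) + t * n ≠ 0 := fun c => ts (by
    rw [eq_div_iff n0]; linear_combination c)
  obtain ⟨C, hC⟩ : ∃ C : F, C = -rd k (χ (pl.σ q)) / (rd k (ε (pl.σ q)) + t * n) := ⟨_, rfl⟩
  have C0 : C ≠ 0 := hC ▸ div_ne_zero (neg_ne_zero.2 s0) w0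
  obtain ⟨C', hC'⟩ : ∃ y, (C.val : ZMod (pp * pp ^ k)) * y = 1 := IsUnit.exists_right_inv (by
    rw [ZMod.isUnit_iff_coprime, ← pow_succ']
    exact (((Nat.Prime.coprime_iff_not_dvd pp_prime).2 fun d => C0 (by
      rwa [← ZMod.natCast_eq_zero_iff, ZMod.natCast_zmod_val] at d)).symm).pow_right _)
  have D'' : Dh b.j (∏ l ∈ insert q Q, l) fun g => χ g + C.val * ε g :=
    ⟨fun g p h n => by rw [D.add g p h n, D'.add g p h n]; ring, fun g p => by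
      rw [Finset.prod_insert qQ] at p
      rw [D'.ker g ((r1 _ b.j b.iq _ o.1.pos).2.2.2.2.2 _ c0 p),
        D.ker g ((r1 _ b.j b.iq _ c0).2.2.2.2.2 _ o.1.pos (mul_comm q _ ▸ p)), mul_zero, add_zero]⟩
  have out l (h : l ∈ Q) := L.out l (hQ l h).pr (Finset.dvd_prod_of_mem _ h)
  have nq l (h : l ∈ Q) : l ≠ q := fun c => qQ (c ▸ h)
  have L' := lz b r1 r2 (Finset.insert_nonempty q Q) ((Finset.forall_mem_insert _ _ _).2
    ⟨⟨o.1, qe, qδ, sq⟩, fun l h => ⟨(hQ l h).pr, (out l h).1, (out l h).2, (hQ l h).sq⟩⟩) D''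
    ((Finset.forall_mem_insert _ _ _).2 ⟨fun P' o' => by
      obtain ⟨τ, t1, t2, t3⟩ := rm P' o'
      have t4 := (P022.H443.inP P').pow_mem t2 C'.val
      exact ⟨_, pow_mem t1 C'.val, t4, by
        rw [i0 o' t4, D'.pow t1, t3, nsmul_eq_mul, ZMod.natCast_zmod_val, mul_one, zero_add, hC']⟩,
      fun l h P' o' => by
        obtain ⟨τ, t1, t2, t3⟩ := L.ram l P' o' (Finset.dvd_prod_of_mem _ h)
        exact ⟨τ, t1, t2, by rw [t3, D'.ker _ (Wr.inert_hc r2 b.iq o' (fun d => nq l h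
          ((Nat.prime_dvd_prime_iff_eq o'.1 o.1).1 d)) t1 t2), mul_zero, add_zero]⟩⟩)
    fun p h => by
      have := un p (Finset.mem_union_left _ (List.mem_toFinset.2 h))
      rw [if_pos h] at this
      rw [this, mul_zero, add_zero]
      exact (L.fro p h _ (e.ov p h)).2 _ (b.ch.frb p h)
  have fin {u} (m : u ∈ b.Γ) (z : rd k (χ u + C.val * ε u) = 0) g :
      pp ∣ (χ (g * u * g⁻¹) + C.val * ε (g * u * g⁻¹)).val := by
    have := (dr D'').cj r1 b.iq (zero_lt_one.trans L'.one) g m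
    simp only [z, neg_zero, or_self] at this
    exact (dv _).2 this
  have τi := (P022.H443.inP (pl.P q)).pow_mem τ1 t.val
  refine ⟨_, L', (Finset.forall_mem_insert _ _ _).2 ⟨⟨gt, fun x => ⟨o.1, qS, ?_⟩, gq⟩,
    fun l h => ⟨hQ l h, fun x => ⟨(hQ l h).pr, ((la.g3 l h).up x).out, ?_⟩, (la.g3 l h).gq⟩⟩,
    (Finset.forall_mem_insert _ _ _).2 ⟨?_, fun l h => ?_⟩⟩
  · rw [up_eq q3, map_mul, (u1 x).fr, (rs x).1.unr _ ⟨q, qS, _, ov, τi⟩, one_mul]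
  · rw [up_ne (nq l h)]
    exact ((la.g3 l h).up x).fr
  · rw [up_eq q3]
    refine fin (mul_mem (σΓ q o.1 sq) (iΓ ov τi)) ?_
    rw [D.add _ (σΓ q o.1 sq) _ (iΓ ov τi), i0 ov τi, D'.add _ (σΓ q o.1 sq) _ (iΓ ov τi),
      D'.pow (iΓ ov τ1), add_zero, map_add, map_mul, map_add, map_nsmul, tn, map_natCast,
      ZMod.natCast_zmod_val, nsmul_eq_mul, ZMod.natCast_zmod_val, hC, div_mul_cancel₀ _ w0,
      add_neg_cancel]
  · rw [up_ne (nq l h)]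
    refine fin (σΓ l (hQ l h).pr (hQ l h).sq) ?_
    have := un l (Finset.mem_union_right _ h)
    rw [if_neg (out l h).1] at this
    rw [this, mul_zero, add_zero, ← dv]
    simpa using la.dz l h 1

end Vale.Agent.P014Z.Rk
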