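import Vale.Agent.P014Z.Rk.Nx0
import Vale.Agent.P014Z.Rk.Nx1

/-! # P014Z, block RK, row NXT: one more prime -/

set_option autoImplicit false
set_option linter.all false

namespace Vale.Agent.P014Z.Rk

open Vale.Agent.P014U P004K

/-- **row NXT** -/
theorem nxt [Pp] (r1 : RC1) (r2 : RC2) (r3 : RC3) (hS : P014Y.Rk.RSA) : NXT :=
  nxt_of r1 r2 r3 hS fun _ _ _ _ _ _ rf vk _ _ _ _ _ _ _ la ty => vals r1 rf vk la ty

end Vale.Agent.P014Z.Rk
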