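import Vale.Agent.P014Z.Rk.St
import Vale.Agent.P014Y.Rk.Bal

/-! # P014Z, block RK: row STP -/

set_option autoImplicit false
set_option linter.all false

noncomputable section

namespace Vale.Agent.P014Z.Rk

open Matrix Module
open scoped Classical
open Vale.Agent.P022 (GQ)
open Vale.Agent.P022D.W (inP_le_dec)
open Vale.Agent.P014U Vale.Agent.P014Y
open L2 (W M2 wp_skew)
open X4S (Pl)
open Mu Md Md.Ki P014Y.Rk

variable [Pp] {a : GQ →* M2} {pl : Pl} {S Q : Finset ℕ} {q : ℕ} {j : Fin 2} {x y : X}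

namespace Sp

theorem bl0 {g : GQ} (m : x ∈ Bl a ⊤) (e : a g = 1) : x g = 0 := by
  obtain ⟨v, k⟩ := m
  rw [k g trivial, Ul.d0_ap, e, one_mulVec, sub_self]

theorem nt (d : Dg a) (n : Nf a ⊤) (j : Fin 2) : ¬ Tv a j := fun t => by
  have := congrFun (n (pw j 1) fun g _ => w_ext (j := j) (by rw [d.mv, t g, one_mul])
    (by rw [d.mv, pw_ne, mul_zero])) j
  rw [pw_self] at this
  exact one_ne_zero this

/-- the dead groups are lines -/
theorem ln (d : Dg a) (n : Nf a ⊤) {M N : Submodule F X} {k : Fin 2} [Module.Finite F N]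
    (b : Bl a ⊤ ≤ N) (e : finrank F ↥(N ⊓ Cm k) = finrank F ↥(M ⊓ Cm j)) (h : M ⊓ Cm j ≤ Bl a ⊤) :
    N ⊓ Cm k ≤ Bl a ⊤ := by
  have l := Ba.b_le1 d (M := M ⊓ Cm j) (le_inf h inf_le_right)
  haveI : Module.Finite F ↥(N ⊓ Cm k) := Submodule.finiteDimensional_inf_left _ _
  have m : pj k (P022K.G2.d0 (L2.rh a) (pw k 1)) ∈ Bl a ⊤ := d.bl _ k _ (Ul.d0_bl _ _)
  have z : pj k (P022K.G2.d0 (L2.rh a) (pw k 1)) ≠ 0 := fun c => nt d n k fun g => by
    have := congrFun (congrFun c g) k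
    rw [pj_ap, pw_self, Ul.d0_ap, Pi.sub_apply, d.mv, pw_self, Pi.one_apply, mul_one] at this
    exact sub_eq_zero.1 this
  have := Submodule.eq_of_le_of_finrank_le (show Submodule.span F {_} ≤ N ⊓ Cm k from
    (Submodule.span_singleton_le_iff_mem _ _).2 ⟨b m, pj_cm⟩) (by
      rw [finrank_span_singleton z]; omega)
  rw [← this]
  exact (Submodule.span_singleton_le_iff_mem _ _).2 m

section

variable (r : Rs a S) (u : ∀ x ∈ Q, U1 a pl S x) (uq : U1 a pl S q) (nq : q ∉ Q)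
include r u uq nq

theorem nw (t : F) : y ∈ St a (up pl q t.val) S (insert q Q) ↔ (y ∈ Yb a pl S Q q ∧
    y (pl.σ q) + t • y (pl.τ q) = 0) ∧ y ∈ Ur a (pl.P pp) := by
  refine (and_congr_left' (new r u uq nq t.val)).trans ?_
  rw [ZMod.natCast_zmod_val]
  rfl

theorem alive (hx : x ∈ Rl a pl S Q ⊓ Cm j) (n : x (pl.σ q) ≠ 0) (t : F)
    (hy : y ∈ St a (up pl q t.val) S (insert q Q) ⊓ Cm (j + 1)) :
    y ∈ St a pl S Q ⊓ Cm (j + 1) ∧ y (pl.σ q) = 0 := by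
  obtain ⟨⟨y1, y2⟩, y3⟩ := (nw r u uq nq t).1 hy.1
  obtain ⟨x1, x2⟩ := (old r u uq nq).1 hx.1.1
  have k := rcp r u uq nq y1 y3 x1 hx.1.2
  rw [x2, P004S.wp_zero_right, zero_add, wp_skew, neg_eq_zero] at k
  have e := wp_ln (j := j + 1) (mem_cm.1 hy.2 _) (mem_cm.1 hx.2 _) k n
  rw [e, smul_zero, add_zero] at y2
  exact ⟨⟨⟨(old r u uq nq).2 ⟨y1, e⟩, y3⟩, hy.2⟩, y2⟩

theorem dead (h : St a pl S Q ⊓ Cm j ≤ Bl a ⊤) {t t' : F}
    (k : ¬ St a (up pl q t.val) S (insert q Q) ⊓ Cm j ≤ Bl a ⊤)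
    (k' : ¬ St a (up pl q t'.val) S (insert q Q) ⊓ Cm j ≤ Bl a ⊤) : t = t' := by
  obtain ⟨x, hx, nx⟩ := SetLike.not_le_iff_exists.1 k
  obtain ⟨y, hy, ny⟩ := SetLike.not_le_iff_exists.1 k'
  obtain ⟨⟨x1, x2⟩, x3⟩ := (nw r u uq nq t).1 hx.1
  obtain ⟨⟨y1, y2⟩, y3⟩ := (nw r u uq nq t').1 hy.1
  have nz : ∀ {z : X}, z ∈ Yb a pl S Q q → z ∈ Ur a (pl.P pp) → z ∈ Cm j → z ∉ Bl a ⊤ →
      z (pl.τ q) j ≠ 0 := fun a b c n e =>
    n (h ⟨⟨(old r u uq nq).2 ⟨a, w_ext e (mem_cm.1 c _)⟩, b⟩, c⟩)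
  have c := sub_mem (Submodule.smul_mem _ (y (pl.τ q) j) hx.2) (Submodule.smul_mem _ (x (pl.τ q) j) hy.2)
  have e := congrFun (bl0 (h ⟨⟨(old r u uq nq).2 ⟨sub_mem (Submodule.smul_mem _ _ x1)
    (Submodule.smul_mem _ _ y1), w_ext (j := j) (by simp [mul_comm]) (mem_cm.1 c _)⟩,
    sub_mem (Submodule.smul_mem _ _ x3) (Submodule.smul_mem _ _ y3)⟩, c⟩) uq.fr) j
  have e1 := congrFun x2 j
  have e2 := congrFun y2 j
  simp only [Pi.sub_apply, Pi.add_apply, Pi.smul_apply, smul_eq_mul, Pi.zero_apply] at e e1 e2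
  exact mul_left_cancel₀ (mul_ne_zero (nz x1 x3 hx.2 nx) (nz y1 y3 hy.2 ny)) (by
    linear_combination y (pl.τ q) j * e1 - x (pl.τ q) j * e2 - e)

end

/-- one plane -/
theorem one (r : Rs a S) (d : Dg a) (n : Nf a ⊤) (e : Ev a j) (u : ∀ x ∈ Q, U1 a pl S x) :
    ∃ z : Fin 2 → X, (∀ k, Ty a pl (S ∪ Q) k (z k)) ∧ ∀ q ∉ Q, U1 a pl S q →
      (∀ k, z k ∉ Bl a ⊤ → z k (pl.σ q) ≠ 0) → ∃ s : F, ∀ t : F,
      (Dd a pl S Q j → t ≠ s → finrank F ↥(St a (up pl q t.val) S (insert q Q) ⊓ Cm (j + 1)) ≤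
        finrank F ↥(St a pl S Q ⊓ Cm (j + 1))) ∧
      (¬ Dd a pl S Q j → finrank F ↥(St a (up pl q t.val) S (insert q Q) ⊓ Cm (j + 1)) <
        finrank F ↥(St a pl S Q ⊓ Cm (j + 1))) := by
  obtain ⟨f, bs, sr, -⟩ := gwl1 a pl S Q r u
  haveI := Submodule.finiteDimensional_of_le sr
  haveI : Module.Finite F ↥(St a pl S Q ⊓ Cm (j + 1)) := Submodule.finiteDimensional_inf_left _ _
  have b := (bal a pl S Q j r d u e).1
  by_cases dd : Dd a pl S Q j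
  · refine ⟨0, fun k => ⟨zero_mem _, fun _ => zero_mem _⟩, fun q nq uq _ => ?_⟩
    obtain ⟨s, hs⟩ : ∃ s : F, ∀ t ≠ s,
        St a (up pl q t.val) S (insert q Q) ⊓ Cm (j + 1) ≤ Bl a ⊤ := by
      by_cases k : ∀ t : F, St a (up pl q t.val) S (insert q Q) ⊓ Cm (j + 1) ≤ Bl a ⊤
      · exact ⟨0, fun t _ => k t⟩
      · obtain ⟨s, k⟩ := not_forall.1 k
        exact ⟨s, fun t m => by_contra fun c =>
          m (dead r u uq nq (inf_le_left.trans dd.1) c k)⟩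
    exact ⟨s, fun t => ⟨fun _ m => Submodule.finrank_mono
      (le_inf ((hs t m).trans bs) inf_le_right), fun c => absurd dd c⟩⟩
  have nA : ¬ Rl a pl S Q ⊓ Cm j ≤ Bl a ⊤ := fun h => dd ⟨(d.st pl S Q).le j
    ((inf_le_inf_right _ sr).trans h) (ln d n bs b.symm h), h⟩
  obtain ⟨x, hx, nx⟩ := SetLike.not_le_iff_exists.1 nA
  obtain ⟨y, hy, ny⟩ := SetLike.not_le_iff_exists.1 fun h => nA (ln d n (bs.trans sr) b h)
  refine ⟨fun k => if k = j then x else y, fun k => ⟨?_, fun t => absurd t (nt d n k)⟩,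
    fun q nq uq h => ⟨0, fun t => ⟨fun c => absurd c dd, fun _ => ?_⟩⟩⟩
  · beta_reduce
    split_ifs with c
    · exact ⟨hx.1.1.1, c ▸ hx.2⟩
    · exact ⟨hy.1.1.1, (by decide : ∀ k j : Fin 2, ¬ k = j → k = j + 1) k j c ▸ hy.2⟩
  · have x0 := h j
    have y0 := h (j + 1)
    simp only [if_true, if_neg (succ_ne (j := j))] at x0 y0
    exact Submodule.finrank_lt_finrank_of_lt (SetLike.lt_iff_le_and_exists.2
      ⟨fun z m => (alive r u uq nq hx (x0 nx) t m).1, y, hy,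
        fun m => y0 ny (alive r u uq nq hx (x0 nx) t m).2⟩)

end Sp

theorem stp : STP := fun ι _ a v pl S Q c h u => by
  refine or_iff_not_imp_left.2 fun nd => ?_
  obtain ⟨i₀, n₀⟩ := not_forall.1 nd
  choose z ty hz using fun i =>
    Sp.one (h i).1 (h i).2.1 (h i).2.2.1 (h i).2.2.2 fun q m => u q m i
  refine ⟨z, ty, fun q nq uq nz s => ?_⟩
  choose f hf using fun i => hz i q nq (uq i) (nz i)
  obtain ⟨t, -, ht⟩ := Finset.exists_mem_notMem_of_card_lt_card (t := Finset.univ)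
    (s := Finset.univ.image (Function.update f i₀ s)) (Finset.card_image_le.trans_lt (by
      rwa [Finset.card_univ, Finset.card_univ, ZMod.card]))
  simp only [Finset.mem_image, Finset.mem_univ, true_and, not_exists] at ht
  refine ⟨t, fun e => ht i₀ (by simp [e]), Finset.sum_lt_sum (fun i _ => ?_)
    ⟨i₀, Finset.mem_univ _, (hf i₀ t).2 n₀⟩⟩
  by_cases dd : Dd (a i) pl S Q (v i)
  · exact (hf i t).1 dd fun e => ht i (by
      rw [Function.update_of_ne (fun k : i = i₀ => n₀ (k ▸ dd)), e])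
  · exact ((hf i t).2 dd).le

end Vale.Agent.P014Z.Rk
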