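import Vale.Agent.P014Z.Rk.St
import Vale.Agent.P014Y.F.Pt.Kd
import Vale.Agent.P004R.Twr0

/-! # P014Z, block RK: the group of the field and the group of the class field -/

set_option autoImplicit false
set_option linter.all false

noncomputable section

namespace Vale.Agent.P014Z.Rk

open NumberField
open Vale.Agent.P022 (Qb GQ)
open Vale.Agent.P027M.S (Inert)
open Vale.Agent.P022E.GW (Ov)
open Vale.Agent.P014U Vale.Agent.P014Y
open P004K (RC1 RC2 Hc)

variable [Pp]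

theorem vks (r1 : RC1) (r2 : RC2) : VKS := fun e b => by
  have s : ∀ l ∈ e.S, ∀ P, Ov l P → ∀ g, Inert P g → g ∈ b.Γ := fun l m P o g i => by
    obtain ⟨t, k, -⟩ := P004S.ex_conj (e.ov l m) o
    simpa [mul_assoc] using b.Γ_conj (b.le l m (P004S.inert_dec (k g i))) t
  have u : ∀ l ∉ insert 2 b.δ'.primeFactors, ∀ P, Ov l P → ∀ g, Inert P g → g ∈ b.Γ :=
    fun l m P o g i => b.inert_mem o (fun z => m (z ▸ Finset.mem_insert_self _ _))
      (fun d => m (Finset.mem_insert_of_mem (Nat.mem_primeFactors.2 ⟨o.1, d, b.pos.ne'⟩))) i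
  have h : ∀ {l P g}, Ov l P → Inert P g → g ∈ b.Γ → g ∈ Hc b.j 1 := fun o i m =>
    P004R.Wr.inert_hc r2 b.iq o (fun d => o.1.one_lt.ne' (Nat.dvd_one.1 d)) m i
  obtain ⟨-, op, nm, -, an, -⟩ := r1 b.K b.j b.iq 1 one_pos
  refine ⟨⟨⟨fun g m t => b.Γ_conj m t⟩, b.Γ_open, le_rfl, s, ⟨_, fun g ⟨l, m, P, o, i⟩ =>
    u l m P o g i⟩, fun g m => mul_mem m (b.Γ_conj m _)⟩, nm, op, inf_le_left,
    fun l m P o g i => h o i (s l m P o g i), ⟨_, fun g ⟨l, m, P, o, i⟩ => h o i (u l m P o g i)⟩,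
    fun g m => ?_⟩
  simpa [mul_assoc] using nm.conj_mem _ (an _ b.c_out g m) g

end Vale.Agent.P014Z.Rk
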