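import Vale.Agent.P014Z.Rk.Lzf

/-! # P014Z, block RK: one more prime in a layer (helper24) -/

set_option autoImplicit false
set_option linter.all false

noncomputable section

namespace Vale.Agent.P014Z.Rk

open NumberField Matrix
open Vale.Agent.P022 (Qb GQ GK)
open Vale.Agent.P027M.S (Inert)
open Vale.Agent.P022E.GW (Ov Fb)
open Vale.Agent.P014U
open P004K P004R
open P004F.Pt (Dh)
open P014Y.F (Crv Fld)
open P014Y.Mu (Sq)

variable [Pp] {e : Crv} {b : Fld e}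

/-- **the sum of a layer and a character of prime conductor** -/
theorem Lz.add (r1 : RC1) (r2 : RC2) {k q : ℕ} {Q : Finset ℕ} {χ ψ : GQ → ZMod (pp * pp ^ k)}
    (hQ : ∀ l ∈ Q, l.Prime ∧ Sq b.Γ l) (h : Lz b k (∏ l ∈ Q, l) χ) (hq : q.Prime) (qS : q ∉ e.S)
    (qQ : q ∉ Q) (qδ : ¬ q ∣ b.δ') (sq : Sq b.Γ q) (D : Dh b.j q ψ)
    (rm : ∀ P, Ov q P → ∃ τ ∈ b.Γ, Inert P τ ∧ ψ τ = 1) (un : ∀ p ∈ e.S, ψ (b.φ p) = 0)
    {s : ZMod (pp * pp ^ k)} (u : IsUnit s) :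
    Lz b k (∏ l ∈ insert q Q, l) fun g => χ g + s * ψ g := by
  classical
  have c0 := zero_lt_one.trans h.one
  have D' := h.dh
  have dv : ∀ l ∈ Q, l ∣ ∏ l ∈ Q, l := fun l a => Finset.dvd_prod_of_mem _ a
  refine lz b r1 r2 (Finset.insert_nonempty _ _) (fun l a => ?_)
    ⟨fun x a y a' => by rw [D.add x a y a', D'.add x a y a']; ring, fun x a => ?_⟩
    (fun l a P o => ?_) fun p m => ?_
  · rcases Finset.mem_insert.1 a with rfl | a
    exacts [⟨hq, qS, qδ, sq⟩, ⟨(hQ l a).1, (h.out l (hQ l a).1 (dv l a)).1,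
      (h.out l (hQ l a).1 (dv l a)).2, (hQ l a).2⟩]
  · rw [Finset.prod_insert qQ] at a
    rw [D.ker x ((r1 _ b.j b.iq _ hq.pos).2.2.2.2.2 _ c0 a),
      D'.ker x ((r1 _ b.j b.iq _ c0).2.2.2.2.2 _ hq.pos (mul_comm q _ ▸ a)), mul_zero, add_zero]
  · rcases Finset.mem_insert.1 a with rfl | a
    · obtain ⟨τ, a1, a2, a3⟩ := rm P o
      obtain ⟨t, ht⟩ := u.exists_right_inv
      have i : Inert P (τ ^ t.val) := (P022.H443.inP P).pow_mem a2 _
      refine ⟨_, pow_mem a1 _, i, ?_⟩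
      rw [D'.ker _ (Wr.inert_hc r2 b.iq o (fun d => qQ (Nat.primeFactors_prod
        (fun l a => (hQ l a).1) ▸ Nat.mem_primeFactors.2 ⟨o.1, d, c0.ne'⟩)) (pow_mem a1 _) i),
        D.pow a1, a3, nsmul_eq_mul, ZMod.natCast_zmod_val, mul_one, ht, zero_add]
    · obtain ⟨τ, a1, a2, a3⟩ := h.ram l P o (dv l a)
      exact ⟨τ, a1, a2, by rw [a3, D.ker _ (Wr.inert_hc r2 b.iq o (fun d => qQ
        ((Nat.prime_dvd_prime_iff_eq o.1 hq).1 d ▸ a)) a1 a2), mul_zero, add_zero]⟩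
  · rw [un p m, mul_zero, add_zero]
    exact (h.fro p m _ (e.ov p m)).2 _ (b.ch.frb p m)

end Vale.Agent.P014Z.Rk
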