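import Vale.Agent.P014Z.Rk.Stp
import Vale.Agent.P014Z.Rk.Bnd
import Vale.Agent.P014Z.Rk.Vks
import Vale.Agent.P014Z.Rk.Lzf
import Vale.Agent.P014Z.Rk.Ini
import Vale.Agent.P014Z.Rk.Nxt
import Vale.Agent.P014Z.Gl.Tow
import Vale.Agent.P014Y.Rk.Kla
import Vale.Agent.P014Y.Rk.Rsa
import Vale.Agent.P014Y.Mu.Rse
import Vale.Agent.P004K.Rc.All

/-! # P014Z, block RK: the exports without hypotheses -/

set_option autoImplicit false

namespace Vale.Agent.P014Z.Rk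

open Vale.Agent.P014U Vale.Agent.P004K

variable [Pp]

theorem x_vks : VKS := vks x_rc1 x_rc2

theorem x_lzf : LZF := lzf x_rc1 x_rc2

theorem x_kzf : KZF := kzf stp bnd P014Y.Rk.kla P014Y.Mu.rse P014Y.Rk.rsa (ini x_rc1 x_rc2 x_rc3)
  (nxt x_rc1 x_rc2 x_rc3 P014Y.Rk.rsa)

/-- **the tower** -/
theorem x_tow : Gl.TOW := Gl.tow P014Y.Mu.rse x_kzf x_lzf x_vks

end Vale.Agent.P014Z.Rk
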