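import Vale.Agent.P014Z.Rk.St
import Vale.Agent.P014Y.Rk.Lst
import Vale.Agent.P014Y.Rk.Chva

/-! # P014Z, block RK: all classes are not zero at one element of a given coset -/

set_option autoImplicit false
set_option linter.all false

noncomputable section

namespace Vale.Agent.P014Z.Rk

open NumberField Matrix
open scoped Classical
open Vale.Agent.P022 (Qb GQ GK)
open Vale.Agent.P027M.S (Inert)
open Vale.Agent.P022E.GW (Ov Fb)
open Vale.Agent.P022K.G2 (oz zt)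
open Vale.Agent.P014U Vale.Agent.P014Y
open L2 (W M2)
open X4S (Pl)
open P004K P004R
open P004F.Pt (Dh fx_mul fx_inv fx_pow)
open P014Y.F (Crv Fld)
open P014Y.F.Pt (N1 fx_cm fx_of fx_pw ex_pw)
open P014Y.Mu (F X Rs Nf tw Sd Bl)
open P014Y.Rk (Dg Ty)
open P014Y.Rk.Ls (Cz fx_c cz nb)
open P014Y.Rk.Cv (dm d_cm d_pow)

namespace Nx

section

variable {G κ : Type} [Group G] {p : ℕ} [Fact p.Prime] {U : Subgroup G}

theorem ad_pow {f : G → ZMod p} (ad : ∀ u ∈ U, ∀ v ∈ U, f (u * v) = f u + f v) {u : G}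
    (m : u ∈ U) (n : ℕ) : f (u ^ n) = n * f u := by
  induction n with
  | zero => simpa using ad 1 (one_mem _) 1 (one_mem _)
  | succ n ih => rw [pow_succ, ad _ (pow_mem m n) _ m, ih]; push_cast; ring

/-- additive maps of distinct types are independent -/
theorem ind [Finite κ] (nU : U.Normal) {θ f : κ → G → ZMod p}
    (ad : ∀ x, ∀ u ∈ U, ∀ v ∈ U, f x (u * v) = f x u + f x v)
    (cj : ∀ x s, ∀ u ∈ U, f x (s * u * s⁻¹) = θ x s * f x u)
    (df : ∀ x y, x ≠ y → ∃ s, θ x s ≠ θ y s) (t : κ → ZMod p) :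
    ∃ u ∈ U, ∀ x, (∃ v ∈ U, f x v ≠ 0) → t x + f x u ≠ 0 := by
  have := Fintype.ofFinite κ
  have k x (hx : ∃ v ∈ U, f x v ≠ 0) (B : Finset κ) :
      ∃ v ∈ U, f x v ≠ 0 ∧ ∀ y ∈ B, y ≠ x → f y v = 0 := by
    induction B using Finset.induction_on with
    | empty => exact hx.imp fun v h => ⟨h.1, h.2, by simp⟩
    | insert r B _ ih =>
      obtain ⟨v, m, v0, h⟩ := ih
      by_cases e : r = x
      · exact ⟨v, m, v0, Finset.forall_mem_insert _ _ _ |>.2 ⟨fun q => (q e).elim, h⟩⟩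
      obtain ⟨s, hs⟩ := df x r (Ne.symm e)
      have q w : f w (s * v * s⁻¹ * v ^ (-θ r s).val) = (θ w s - θ r s) * f w v := by
        rw [ad w _ (nU.conj_mem _ m s) _ (pow_mem m _), cj w s v m, ad_pow (ad w) m,
          ZMod.natCast_zmod_val]
        ring
      exact ⟨_, mul_mem (nU.conj_mem _ m s) (pow_mem m _),
        q x ▸ mul_ne_zero (sub_ne_zero.2 hs) v0, Finset.forall_mem_insert _ _ _ |>.2
          ⟨fun _ => by rw [q, sub_self, zero_mul], fun l ml n => by rw [q, h l ml n, mul_zero]⟩⟩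
  have k' (B : Finset κ) : ∃ u ∈ U, ∀ x ∈ B, (∃ v ∈ U, f x v ≠ 0) → t x + f x u ≠ 0 := by
    induction B using Finset.induction_on with
    | empty => exact ⟨1, one_mem _, by simp⟩
    | insert r B rB ih =>
      obtain ⟨u, m, h⟩ := ih
      by_cases e : (∃ v ∈ U, f r v ≠ 0) → t r + f r u ≠ 0
      · exact ⟨u, m, Finset.forall_mem_insert _ _ _ |>.2 ⟨e, h⟩⟩
      push Not at e
      obtain ⟨v, mv, v0, hv⟩ := k r e.1 Finset.univ
      refine ⟨u * v, mul_mem m mv, Finset.forall_mem_insert _ _ _ |>.2 ⟨fun _ => ?_,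
        fun x mx n => ?_⟩⟩
      · rwa [ad r u m v mv, ← add_assoc, e.2, zero_add]
      · rw [ad x u m v mv, hv x (Finset.mem_univ _) (fun c => rB (c ▸ mx)), add_zero]
        exact h x mx n
  exact (k' Finset.univ).imp fun u h => ⟨h.1, fun x => h.2 x (Finset.mem_univ _)⟩

end

theorem sah {k : Type} [Field k] {θ f : GQ → k} (z : Cz θ f) {c : GQ} (e : θ c ≠ 1)
    (n : ¬ ∃ v, ∀ g, f g = θ g * v - v) : ∃ g, f (g * c * g⁻¹ * c⁻¹) ≠ 0 := by
  by_contra! q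
  refine n ⟨f c / (θ c - 1), fun g => ?_⟩
  have := z.co (g * c * g⁻¹ * c⁻¹) (c * g)
  rw [q, z.cm, show g * c * g⁻¹ * c⁻¹ * (c * g) = g * c by group, z.co, z.co] at this
  have := sub_ne_zero.2 e
  field_simp
  linear_combination -‹f g + θ g * f c = _›

/-- the elements which fix the roots -/
def FG (A : Set Qb) (N : ℕ) : Subgroup GQ where
  carrier := {g | Fx A N g}
  mul_mem' := fx_mul
  one_mem' := fun _ _ => rfl
  inv_mem' := fx_inv

variable {K : Type} [Field K] [NumberField K] {j : K →+* Qb}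

theorem FG_nor (j : K →+* Qb) (N : ℕ) : (FG (N1 j) N).Normal := ⟨fun g m s y ⟨u0, u1, u2⟩ => by
  rw [AlgEquiv.mul_apply, AlgEquiv.mul_apply, m (s⁻¹ y) ?_, ← AlgEquiv.mul_apply, mul_inv_cancel,
    AlgEquiv.one_apply]
  rw [← map_pow]
  by_cases h : s⁻¹ ∈ GK j
  · rw [u1 _ h]; exact ⟨u0, u1, u2⟩
  · rw [u2 _ h]
    exact ⟨inv_ne_zero u0, fun g h => by rw [map_inv₀, u1 g h], fun g h => by
      rw [map_inv₀, u2 g h]⟩⟩

variable [Pp]

/-- conjugation acts on the Kummer symbols by the cyclotomic character -/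
theorem fx_s {s : GQ} (hs : s ∈ GK j) (k : ℕ) : ∃ n : ℕ, (n : F) = oz pp s ∧ ∀ g ∈ GK j,
    Fx {1} (pp ^ (k + 1)) g → Fx (N1 j) (pp ^ (k + 1)) ((s * g * s⁻¹)⁻¹ * g ^ n) := by
  have N0 := pow_ne_zero (k + 1) pp_ne
  have := NeZero.mk N0
  obtain ⟨ζ, hζ⟩ := HasEnoughRootsOfUnity.exists_primitiveRoot Qb (pp ^ (k + 1))
  obtain ⟨n, hn⟩ := ex_pw N0 hζ.pow_eq_one s
  have a (ξ : Qb) (h : ξ ^ pp ^ (k + 1) = 1) : s ξ = ξ ^ n := by
    obtain ⟨i, -, rfl⟩ := hζ.eq_pow_of_pow_eq_one h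
    rw [map_pow, hn, pow_right_comm]
  refine ⟨n, P022K.G2.pw_inj ?_, fun g hg f y ⟨u0, u1, _⟩ => ?_⟩
  · rw [← P022K.G2.oz_spec, a _ (by rw [pow_succ', pow_mul, P022K.G2.zt_pow, one_pow]),
      ZMod.val_natCast, ← pow_eq_pow_mod _ P022K.G2.zt_pow]
  have y0 : y ≠ 0 := fun c => u0 (by rw [c, zero_pow N0])
  have q {t} (m : t ∈ GK j) : (t y / y) ^ pp ^ (k + 1) = 1 := by
    rw [div_pow, ← map_pow, u1 t m, div_self u0]
  have e1 (i : ℕ) : (g ^ i) y = (g y / y) ^ i * y := by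
    induction i with
    | zero => simp
    | succ i ih =>
      rw [pow_succ', AlgEquiv.mul_apply, ih, map_mul, map_pow, f _ (q hg), pow_succ, mul_assoc,
        div_mul_cancel₀ _ y0]
  have e2 : g (s⁻¹ y) = g y / y * s⁻¹ y := by
    have := f _ (q (inv_mem hs))
    rw [map_div₀, div_eq_iff ((map_ne_zero g).2 y0)] at this
    rw [this]; ring
  have e3 : (s * g * s⁻¹) y = (g ^ n) y := by
    rw [AlgEquiv.mul_apply, AlgEquiv.mul_apply, e2, map_mul, a _ (q hg), ← AlgEquiv.mul_apply,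
      mul_inv_cancel, AlgEquiv.one_apply, e1]
  rw [AlgEquiv.mul_apply, ← e3, ← AlgEquiv.mul_apply, inv_mul_cancel, AlgEquiv.one_apply]

variable {ι : Type} {e : Crv} {b : Fld e} {a : ι → GQ →* M2} {V : Subgroup GQ}

theorem a2_in {g : GQ} (m : g ∈ b.Γ) (x : ι × Fin 2) : a2 b a x g = a x.1 g := by
  obtain ⟨i, r⟩ := x
  fin_cases r
  exacts [rfl, Bo.tw_of (a i) ((b.kd.gk _).1 m)]

theorem a2_dg (rf : Rf e a) (x : ι × Fin 2) : Dg (a2 b a x) := by
  obtain ⟨i, r⟩ := x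
  fin_cases r
  · exact (rf.ra i).dg
  · intro g l j n
    show _ * a i g l j = 0
    rw [(rf.ra i).dg g l j n, mul_zero]

/-- the characters are not trivial on `V` -/
theorem ex_s (rf : Rf e a) (vk : Vk b V) (i : ι) (j : Fin 2) : ∃ s ∈ V, a i s j j ≠ 1 := by
  by_contra! q
  let φ : GQ →* F := ⟨⟨fun g => a i g j j, by simp⟩, fun g h => dm (rf.ra i).dg g h j⟩
  have top := P022K.CH.mink_top φ.ker (Subgroup.isOpen_mono (H₁ := V) q vk.opn)
    fun l P o g m => by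
      by_cases h : l ∈ e.S
      · exact q g (vk.ine l h P o g m)
      · show a i g j j = 1
        rw [(rf.ra i).rs.unr g ⟨l, fun c => h (List.mem_toFinset.1 c), P, o, m⟩, one_apply_eq]
  have := rf.nf i (Pi.single j 1) fun g _ => by
    rw [P014Y.Rk.Cv.ln (rf.ra i).dg g (j := j) fun l n => Pi.single_eq_of_ne n _,
      show a i g j j = 1 from show g ∈ φ.ker from top ▸ trivial, one_smul]
  simpa using congrFun this j

theorem a2_ne (rf : Rf e a) (x y : (ι × Fin 2) × Fin 2)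
    (h : ∀ g, a2 b a x.1 g x.2 x.2 = a2 b a y.1 g y.2 y.2) : x = y := by
  obtain ⟨⟨i, r⟩, j⟩ := x
  obtain ⟨⟨i', r'⟩, j'⟩ := y
  obtain ⟨t, t0, t1⟩ := b.ex_ker
  have t2 i : a i t = 1 := (rf.ra i).ker t (by
    change (e.r t).map PadicInt.toZMod = 1
    rw [t1]; exact Matrix.map_one _ (map_zero _) (map_one _))
  have t3 i : tw (-b.δ') (a i) t = -1 := by
    show (if _ then 1 else -1 : F) • a i t = _
    rw [if_neg (mt (b.kd.gk _).2 t0), t2, neg_smul, one_smul]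
  have k g (m : g ∈ b.Γ) : a i g j j = a i' g j' j' := by
    have := h g
    rwa [a2_in m, a2_in m] at this
  obtain ⟨rfl, rfl⟩ := rf.ne i j i' j' fun g => by
    by_cases m : g ∈ b.Γ
    · exact k g m
    · simpa [t2] using k _ (b.mul_out m t0)
  have n : a i t j j ≠ tw (-b.δ') (a i) t j j := fun c => two_ne (by
    rw [t2, t3, neg_apply, one_apply_eq] at c
    linear_combination c)
  have := h t
  fin_cases r <;> fin_cases r'
  exacts [rfl, (n this).elim, (n this.symm).elim, rfl]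

/-- into `V` and into the kernels -/
theorem ex_u (rf : Rf e a) (vk : Vk b V) (k : ℕ) {h : GQ} (m : h ∈ b.Γ)
    (f : Fx {1} (pp ^ (k + 1)) h) : ∃ u ∈ b.Γ, Fx (N1 b.j) (pp ^ (k + 1)) u ∧ h * u ∈ V ∧
      ∀ i, a i (h * u) = 1 := by
  obtain ⟨r, hr⟩ := pp_odd
  obtain ⟨w, hw⟩ : pp - 1 ∣ (pp ^ 2) ^ (k + 1) - 1 := by
    rw [← pow_mul]
    simpa using Nat.sub_dvd_pow_sub_pow pp 1 (2 * (k + 1))
  have p1 : pp - 1 = r + r := by omega
  have e1 : h ^ (pp ^ 2) ^ (k + 1) = h ^ (r * w) * h ^ (r * w) * h := by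
    rw [← pow_add, ← pow_succ, ← add_mul, ← p1, ← hw,
      Nat.sub_add_cancel (pow_pos (pow_pos pp_pos _) _)]
  have e2 i : a i (h ^ (r * w) * h ^ (r * w)) = 1 := by
    rw [← pow_add, ← add_mul, ← p1, mul_comm, pow_mul]
    exact d_pow (rf.ra i).dg _
  have f1 := fx_pw m (fun y hy => f y (by
    rw [pow_succ', pow_mul, Set.mem_singleton_iff.1 hy, one_pow]; rfl)) k
  have m2 := pow_mem m (r * w)
  have f2 := fx_c (pow_ne_zero _ pp_ne) m2 b.c_out b.cc (fx_pow f (r * w))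
  rw [e1] at f1
  generalize h ^ (r * w) = γ at *
  have e3 : h * ((γ * γ * h)⁻¹ * ((b.c * γ * b.c⁻¹)⁻¹ * γ)) =
      γ⁻¹ * (γ⁻¹ * (b.c * γ⁻¹ * b.c⁻¹)) * γ⁻¹⁻¹ := by group
  refine ⟨_, mul_mem (inv_mem (mul_mem (mul_mem m2 m2) m))
    (mul_mem (inv_mem (b.Γ_conj m2 _)) m2), fx_mul (fx_inv f1) f2,
    e3 ▸ vk.nrm.conj_mem _ (vk.anti _ (inv_mem m2)) _, fun i => ?_⟩
  rw [e3, show γ⁻¹ * (γ⁻¹ * (b.c * γ⁻¹ * b.c⁻¹)) * γ⁻¹⁻¹ =
    (γ * γ)⁻¹ * (b.c * γ⁻¹ * b.c⁻¹ * γ⁻¹⁻¹) by group, map_mul, d_cm (rf.ra i).dg, mul_one]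
  exact (a i).ker.inv_mem (e2 i)

end Nx

open Nx in
/-- **all classes and the layer are not zero at one element of the coset** -/
theorem vals [Pp] (r1 : RC1) {ι : Type} [Finite ι] {e : Crv} {b : Fld e} {a : ι → GQ →* M2}
    {V : Subgroup GQ} {E Q T : Finset ℕ} {m k : ℕ} {pl : Pl} {χ : GQ → ZMod (pp * pp ^ k)}
    {z : ι × Fin 2 → Fin 2 → X} (rf : Rf e a) (vk : Vk b V) (la : La b a V E m k pl Q χ)
    (ty : ∀ x j, Ty (a2 b a x) pl T j (z x j)) :
    ∀ h ∈ b.Γ, Fx {1} (pp ^ (k + 1)) h → ∃ u ∈ b.Γ, Fx (N1 b.j) (pp ^ (k + 1)) u ∧ h * u ∈ V ∧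
      (∀ i, a i (h * u) = 1) ∧ ¬ pp ∣ (χ (h * u)).val ∧
      ∀ x j, z x j ∉ Bl (a2 b a x) ⊤ → z x j (h * u) ≠ 0 := fun h hΓ hf => by
  obtain ⟨u, u1, u2, u3, u4⟩ := ex_u rf vk k hΓ hf
  have N0 := pow_ne_zero (k + 1) pp_ne
  have L := la.lz
  have D : Dh b.j (∏ l ∈ Q, l) fun g => ((χ g).val : F) := ⟨fun g p h n => by
    rw [← Nat.cast_add, ZMod.natCast_eq_natCast_iff]
    exact (L.ad.add g p h n).of_dvd (dvd_pow_self _ k.succ_ne_zero), fun g p =>
      (ZMod.natCast_eq_zero_iff _ _).2 ((dvd_pow_self _ k.succ_ne_zero).trans (L.ad.ker g p))⟩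
  let A : Subgroup GQ := V ⊓ ⨅ i, (a i).ker
  have mA {g} : g ∈ A ↔ g ∈ V ∧ ∀ i, a i g = 1 := and_congr_right fun _ => Subgroup.mem_iInf
  have nA : A.Normal := ⟨fun g p s => mA.2 ⟨vk.nrm.conj_mem _ p.1 s, fun i =>
    (a i).normal_ker.conj_mem _ ((mA.1 p).2 i) s⟩⟩
  let θ : Option ((ι × Fin 2) × Fin 2) → GQ → F := fun x g =>
    x.elim (if g ∈ b.Γ then 1 else -1) fun x => a2 b a x.1 g x.2 x.2
  let f : Option ((ι × Fin 2) × Fin 2) → GQ → F := fun x g =>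
    x.elim (χ g).val fun x => z x.1 x.2 g x.2
  have zc (x : (ι × Fin 2) × Fin 2) : Cz (θ (some x)) (f (some x)) :=
    cz (a2_dg rf x.1) (ty x.1 x.2).1.1 x.2
  have t1 (x : (ι × Fin 2) × Fin 2) {g} (p : g ∈ A) : θ (some x) g = 1 := by
    show a2 b a x.1 g x.2 x.2 = 1
    rw [a2_in (vk.le p.1), (mA.1 p).2, one_apply_eq]
  have ad x : ∀ g ∈ A, ∀ v ∈ A, f x (g * v) = f x g + f x v := fun g p v q => by
    cases x with
    | none => exact D.add g (vk.le p.1) v (vk.le q.1)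
    | some x => rw [(zc x).co, t1 x p, one_mul]
  have cj x s : ∀ g ∈ A, f x (s * g * s⁻¹) = θ x s * f x g := fun g p => by
    cases x with
    | some x => exact (zc x).cj (t1 x p) s
    | none =>
      show _ = (if s ∈ b.Γ then 1 else -1 : F) * _
      split_ifs with c
      · exact (D.cj_in c (vk.le p.1)).trans (one_mul _).symm
      · exact (D.cj_out r1 b.iq (zero_lt_one.trans L.one) c (vk.le p.1)).trans
          (neg_one_mul _).symm
  have d0 (x : (ι × Fin 2) × Fin 2) : ∃ s, θ none s ≠ θ (some x) s := by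
    obtain ⟨s, p, q⟩ := ex_s rf vk x.1.1 x.2
    refine ⟨s, fun c => q ?_⟩
    rw [← a2_in (vk.le p)]
    exact c.symm.trans (if_pos (vk.le p))
  have dn x {g s} {n : ℕ} (p : g ∈ A) (q : f x g ≠ 0) (ne : θ x s ≠ n)
      (fx : Fx (N1 b.j) (pp ^ (k + 1)) ((s * g * s⁻¹)⁻¹ * g ^ n)) :
      ∃ v ∈ A ⊓ FG (N1 b.j) (pp ^ (k + 1)), f x v ≠ 0 := by
    have p' := mul_mem (inv_mem (nA.conj_mem _ p s)) (pow_mem p n)
    refine ⟨_, ⟨p', fx⟩, fun c => ne (mul_right_cancel₀ q ?_)⟩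
    have := ad x _ (nA.conj_mem _ p s) _ p'
    rw [mul_inv_cancel_left, ad_pow (ad x) p, cj x s g p, c, add_zero] at this
    exact this.symm
  obtain ⟨v, ⟨v1, v2⟩, hv⟩ := ind (U := A ⊓ FG (N1 b.j) (pp ^ (k + 1))) (θ := θ) (f := f)
    (have := FG_nor b.j (pp ^ (k + 1)); inferInstance) (fun x g p v q => ad x g p.1 v q.1)
    (fun x s g p => cj x s g p.1) (fun x y n => by
      cases x with
      | none =>
        cases y with
        | none => exact (n rfl).elim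
        | some y => exact d0 y
      | some x =>
        cases y with
        | none => exact (d0 x).imp fun _ => Ne.symm
        | some y => exact not_forall.1 fun c => n (congrArg some (a2_ne rf x y c)))
    fun x => f x (h * u)
  have p0 : h * u ∈ A := mA.2 ⟨u3, u4⟩
  have p1 := mA.1 (mul_mem p0 v1)
  have hw x n : f x (h * u * v) ≠ 0 := ad x _ p0 v v1 ▸ hv x n
  refine ⟨u * v, mul_mem u1 (vk.le v1.1), fx_mul u2 v2, ?_⟩
  rw [← mul_assoc]
  refine ⟨p1.1, p1.2, fun c => hw none ?_ ((ZMod.natCast_eq_zero_iff _ _).2 c),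
    fun x j n c => hw (some (x, j)) ?_ (congrFun c j)⟩
  · obtain ⟨q, hq⟩ : Q.Nonempty := Finset.nonempty_iff_ne_empty.2 fun c => by
      simpa [c] using L.one
    have g := la.g3 q hq
    have o := pl.ov q g.pr
    have dv := Finset.dvd_prod_of_mem (fun l => l) hq
    obtain ⟨t, tΓ, ti, t1⟩ := L.ram q _ o dv
    have qS := (L.out q g.pr dv).1
    refine dn none (s := b.c) (n := 1) (mA.2 ⟨(mul_mem_cancel_left (g.fv _ _ o (pl.fb q g.pr))).1
      (g.fv _ _ o (P014Y.Mu.Lv.fb_mul o (pl.fb q g.pr) ti)), fun i => (rf.ra i).rs.unr t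
        ⟨q, fun c => qS (List.mem_toFinset.1 c), _, o, ti⟩⟩) ?_ (fun c => two_ne ?_) ?_
    · show ((χ t).val : F) ≠ 0
      rw [t1, ZMod.val_one'' (Nat.ne_of_gt (pow_succ' pp k ▸ F.Pt.one_lt_pow' k)), Nat.cast_one]
      exact one_ne_zero
    · have := (if_neg b.c_out).symm.trans c
      rw [Nat.cast_one] at this
      linear_combination -this
    · rw [pow_one]
      exact fx_c N0 tΓ b.c_out b.cc (F.Pt.inert_mu o (fun c => qS (c ▸ e.pm)) ti _)
  · obtain ⟨c, p, q⟩ := ex_s rf vk x.1 j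
    obtain ⟨g, hg⟩ := sah (zc (x, j)) (c := c) (by
      show a2 b a x c j j ≠ 1
      rwa [a2_in (vk.le p)]) (nb (a2_dg rf x) (ty x j).1.2 n)
    have pV := mul_mem (vk.nrm.conj_mem _ p g) (inv_mem p)
    obtain ⟨s, ps, qs⟩ := ex_s rf vk x.1 (j + 1)
    obtain ⟨n, n1, n2⟩ := fx_s (vk.le ps) k
    refine dn (some (x, j)) (mA.2 ⟨pV, fun i => d_cm (rf.ra i).dg g c⟩) hg (fun c => qs ?_)
      (n2 _ (vk.le pV) (fx_cm N0 _ _))
    have c1 : a x.1 s j j = oz pp s := by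
      rw [← a2_in (vk.le ps), ← n1]; exact c
    have c2 : (a x.1 s).det = oz pp s := (congrFun (rf.ra x.1).rs.det s).trans (by
      rw [P022K.G2.om, ZMod.castHom_apply, ZMod.cast_id])
    rw [det_fin_two, (rf.ra x.1).dg s 0 1 (by decide), zero_mul, sub_zero] at c2
    refine mul_left_cancel₀ (P022K.G2.oz_ne s) ?_
    rw [mul_one]
    fin_cases j
    · exact (congrArg (· * _) c1.symm).trans c2
    · exact ((congrArg (· * _) c1.symm).trans (mul_comm _ _)).trans c2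

end Vale.Agent.P014Z.Rk
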