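import Vale.Agent.P014Z.Rk.Lzf
import Vale.Agent.P014Z.St
import Vale.Agent.P014Z.Inr
import Vale.Agent.P014Y.Rk.Rae
import Vale.Agent.P022.H790.L3.CTw

/-! # P014Z, block RK: the export TOW (helper24) -/

set_option autoImplicit false
set_option linter.all false

noncomputable section

namespace Vale.Agent.P014Z.Rk

open NumberField Matrix
open Vale.Agent.P022 (Qb GQ GK)
open Vale.Agent.P027M.S (Inert)
open Vale.Agent.P022D.W (dec exists_phi phi_mem)
open Vale.Agent.P022E.GW (Ov Fb)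
open Vale.Agent.P022K.G2 (oz)
open Vale.Agent.P014U Vale.Agent.P014Y
open P004K
open L2 (W M2)
open P014Y.F (Crv Fld)
open Mu (F Rs Nf RSE rb)
open Bo (dg dg_mv)
open Gl (Ch Ec Dc Da pa TOW)
open P014Y.Rk (Ra dg_dg dg_det dg_on1)

namespace To

theorem tot2 (k : ℕ) : (2 * k).totient ≤ k := by
  induction k using Nat.strong_induction_on with
  | _ k ih =>
    rcases k.even_or_odd with h | h
    · rw [Nat.totient_two_mul_of_even h]
      obtain ⟨j, rfl⟩ := h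
      rcases j.eq_zero_or_pos with rfl | j0
      · simp
      · have := ih j (by omega)
        rw [← two_mul]
        omega
    · exact Nat.totient_two_mul_of_odd h ▸ k.totient_le

variable [Pp]

theorem tot {d : ℕ} (h : d ∣ pp - 1) : 2 * d.totient < pp := by
  obtain ⟨k, e⟩ := pp_prime.odd_of_ne_two pp_ne_two
  have l := one_lt
  have := Nat.le_of_dvd (Nat.totient_pos.2 (by omega)) (Nat.totient_dvd_of_dvd h)
  rw [show pp - 1 = 2 * k by omega] at this
  have := tot2 k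
  omega

theorem fer (η : Ch) (g : GQ) : η g ^ (pp - 1) = 1 :=
  ZMod.pow_card_sub_one_eq_one (Inr.ne0 η g)

theorem tri {a : GQ →* M2} {α δ : GQ → F} (t : Ml.Tri ⊤ a α δ) {g : GQ} (h : a g = 1) :
    α g = 1 ∧ δ g = 1 := by
  obtain ⟨C, C', e, k⟩ := t
  have := k g trivial
  rw [h, mul_one, mul_eq_one_comm.1 e] at this
  exact ⟨this.2.1.symm.trans (one_apply_eq _), this.2.2.symm.trans (one_apply_eq _)⟩

variable {e : Crv} {η η' : Ch} {k : ℕ}

theorem one (c : Ec e η η' k) {g : GQ} (h : rb e g = 1) : η g = 1 ∧ η' g = 1 :=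
  c.tri.elim (fun t => tri t h) fun t => (tri t h).symm

theorem mul (c : Ec e η η' k) (a : ℕ) (g : GQ) :
    (η ^ a) g * (η' * η ^ (1 + (pp - 2) * a)) g = oz pp g := by
  have l := one_lt
  have : η g ^ (a + (pp - 2) * a) = 1 := by
    rw [show a + (pp - 2) * a = (pp - 1) * a by
      rw [show pp - 1 = pp - 2 + 1 by omega]; ring, pow_mul, fer, one_pow]
  simp only [MonoidHom.pow_apply, MonoidHom.mul_apply, ← c.det g]
  rw [pow_add] at this ⊢
  linear_combination η g * η' g * this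

theorem ra (hR : RSE) (c : Ec e η η' k) (a : ℕ) : Ra e (pa η η' a) := by
  have r := (hR e).1
  have k : ∀ g, rb e g = 1 → pa η η' a g = 1 := fun g h => dg_on1
    (by simp [(one c h).1]) (by simp [(one c h).1, (one c h).2])
  exact ⟨dg_dg _ _, ⟨⟨Subgroup.isOpen_mono k r.opn, funext fun g => (dg_det _ _ g).trans
    ((mul c a g).trans (by simp [P022K.G2.om]))⟩, r.pm, r.pr, fun g m => k g (r.unr g m)⟩, k⟩

theorem neg (c : Ec e η η' k) : ∃ i, oz pp i = -1 ∧ η i = 1 := by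
  obtain ⟨i, m, h⟩ := Inr.oz_in (e.ov pp e.pm) (u := -1) (neg_ne_zero.2 one_ne_zero)
  exact ⟨i, h, by rw [c.ine _ i (e.ov pp e.pm) m, h, c.ev.neg_one_pow]⟩

theorem ne1 (D : Da e) : D.η ≠ 1 := fun h => by
  refine D.dc.one.ne ((DirichletCharacter.eq_one_iff_conductor_eq_one.1
    (MulChar.ext fun x => ?_)).symm.trans D.dc.prim)
  obtain ⟨g, rfl⟩ := P022.H790.CT.cyc_surj D.f x
  have := D.dc.eq g _ fun ζ z => P022.H853.cyc_spec g z
  rw [ZMod.natCast_zmod_val, h] at this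
  rw [← this, MulChar.one_apply_coe, MonoidHom.one_apply]

theorem dvd (η : Ch) : orderOf η ∣ pp - 1 := orderOf_dvd_of_pow_eq_one (MonoidHom.ext (fer η))

theorem pos (η : Ch) : 0 < orderOf η :=
  Nat.pos_of_dvd_of_pos (dvd η) (Nat.sub_pos_of_lt one_lt)

theorem pa_mod (η η' : Ch) (a : ℕ) : pa η η' (a % orderOf η) = pa η η' a := by
  rw [pa, pa, pow_mod_orderOf, pow_add, pow_add, mul_comm (pp - 2), mul_comm (pp - 2), pow_mul,
    pow_mul, pow_mod_orderOf]

theorem m1 : (-1 : F) ≠ 1 := fun h => P014U.two_ne (by linear_combination -h)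

/-- the faithful powers -/
abbrev Ix (η : Ch) : Type := ↥((Finset.range (orderOf η)).filter fun a => (orderOf η).Coprime a)

theorem rf (hR : RSE) (c : Ec e η η' k) (n : η ≠ 1) : Rf e fun a : Ix η => pa η η' a := by
  obtain ⟨i, i1, i2⟩ := neg c
  have v0 : ∀ a g, pa η η' a g 0 0 = η g ^ a := fun a g => rfl
  have v1 : ∀ a g, η g ^ a * pa η η' a g 1 1 = oz pp g := fun a g => mul c a g
  have v2 : ∀ a, pa η η' a i 1 1 = -1 := fun a => by simpa [i1, i2] using v1 a i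
  have ij : ∀ a a' : Ix η, (∀ g, η g ^ a.1 = η g ^ a'.1) → a = a' := fun a a' h =>
    Subtype.ext (pow_injOn_Iio_orderOf (Finset.mem_range.1 (Finset.mem_filter.1 a.2).1)
      (Finset.mem_range.1 (Finset.mem_filter.1 a'.2).1) (MonoidHom.ext h))
  refine ⟨fun a => ra hR c a, fun a v h => ?_, fun a j a' j' h => ?_⟩
  · obtain ⟨g, hg⟩ : ∃ g, η g ^ a.1 ≠ 1 := not_forall.1 fun k => n (orderOf_eq_one_iff.1
      ((Finset.mem_filter.1 a.2).2.eq_one_of_dvd (orderOf_dvd_of_pow_eq_one (MonoidHom.ext k))))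
    have e0 : η g ^ a.1 * v 0 = v 0 := congrFun ((dg_mv _ _ g v).symm.trans (h g trivial)) 0
    have e1 : pa η η' a i 1 1 * v 1 = v 1 := congrFun ((dg_mv _ _ i v).symm.trans (h i trivial)) 1
    rw [v2] at e1
    funext s
    fin_cases s
    · exact (mul_left_eq_self₀.1 e0).resolve_left hg
    · exact (mul_left_eq_self₀.1 e1).resolve_left m1
  · fin_cases j <;> fin_cases j'
    · exact ⟨ij a a' h, rfl⟩
    · exact (m1 ((v2 a').symm.trans ((h i).symm.trans ((v0 a i).trans (by rw [i2, one_pow]))))).elim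
    · exact (m1 ((v2 a).symm.trans ((h i).trans ((v0 a' i).trans (by rw [i2, one_pow]))))).elim
    · refine ⟨ij a a' fun g => mul_right_cancel₀ (b := pa η η' a g 1 1) (fun z => ?_)
        ((v1 a g).trans ((v1 a' g).symm.trans (congrArg _ (h g).symm))), rfl⟩
      exact Inr.ne0 (Inr.wz pp) g ((v1 a g).symm.trans (by rw [z, mul_zero]))

theorem cast {N N' : ℕ} (h : N = N') (χ : GQ → ZMod N) : ∃ χ' : GQ → ZMod N',
    (∀ g, (χ' g).val = (χ g).val) ∧ (∀ g, χ g = 1 → χ' g = 1) ∧ (∀ g, χ g = 0 → χ' g = 0) ∧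
      ∀ g x y, χ g = χ x + χ y → χ' g = χ' x + χ' y := by
  subst h
  exact ⟨χ, fun _ => rfl, fun _ h => h, fun _ h => h, fun _ _ _ h => h⟩

end To

open To in
/-- **the export TOW** -/
theorem tow [Pp] (hK : KZF) (hY : LZF) (hV : VKS) (hR : RSE) : TOW := fun e D b => by
  have n1 := ne1 D
  have vk := (hV e b).2
  obtain ⟨r, m, H⟩ := hK (Ix D.η) e b _ _ (by rw [Fintype.card_coe]; exact tot (dvd D.η))
    (rf hR D.ec n1) vk
  refine ⟨r + m + 1, fun n => ?_⟩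
  obtain ⟨c, χ, σ, kd⟩ := H ∅ n
  have c0 := kd.lz.sq.ne_zero
  have gt := fun q (p : q.Prime) (d : q ∣ c) => kd.gt q (Nat.mem_primeFactors.2 ⟨p, d, c0⟩)
  obtain ⟨ly, tw⟩ := hY e b _ ∅ n c χ kd.lz fun q p d => (gt q p d).1
  obtain ⟨χ', x1, x2, x3, x4⟩ := cast (pow_succ' pp n).symm χ
  have ix : ∀ a, a.Coprime (orderOf D.η) → ∃ i : Ix D.η, pa D.η D.η' i = pa D.η D.η' a :=
    fun a h => ⟨⟨_, Finset.mem_filter.2 ⟨Finset.mem_range.2 (Nat.mod_lt a (pos _)),
      (Nat.coprime_comm.1 (by rwa [Nat.Coprime, ← Nat.gcd_rec, Nat.gcd_comm]))⟩⟩, pa_mod _ _ a⟩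
  have un : ∀ {q P i}, Ov q P → q ∣ c → Inert P i → D.η i = 1 := fun o d i =>
    (one D.ec (Mu.Tv.rb_in o (kd.lz.out _ o.1 d).1 i)).1
  have p := Nat.minFac_prime kd.lz.one.ne'
  obtain ⟨Q, oQ⟩ := P022K.GW.Pl.ex_ov p
  obtain ⟨γ, g0, g1, g2⟩ := kd.lz.ram _ Q oQ c.minFac_dvd
  have crd := kd.crd
  refine ⟨c, χ', γ, ⟨by simpa only [x1] using ly, fun g a h a' => x4 _ _ _ (kd.lz.dh.add g a h a'),
    fun g a => x3 _ (kd.lz.dh.ker g a), kd.lz.sq, kd.lz.one,
    Nat.coprime_of_dvd fun q p d => (kd.lz.out q p d).2, fun q P o d => ?_, g0,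
    un oQ c.minFac_dvd g1, x2 _ g2⟩, ⟨σ, fun q a => ⟨(kd.gt q a).2.2.1, by
      simpa only [x1] using (kd.gt q a).2.2.2.2⟩, fun a h => ?_⟩, by omega, fun _ => by
      simpa only [x1] using tw _ n (Nat.succ_pos _) le_rfl (by omega)
        fun q p d => (gt q p d).2.1.mono (by omega)⟩
  · obtain ⟨φ, f⟩ := exists_phi o.1 o.2.1 o.2.2
    obtain ⟨g, -, ⟨P', o', f'⟩, s1, -⟩ := gt q o.1 d
    obtain ⟨i, hi⟩ := ix 1 (Nat.coprime_one_left _)
    have s2 : D.η (σ q) = 1 := by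
      simpa [pa, Bo.dg] using congrFun (congrFun ((DFunLike.congr_fun hi _).symm.trans (s1 i)) 0) 0
    refine fun x m => P004S.lt.dec_le o f (U := Hc b.j 1 ⊓ D.η.ker) (vk.opn.inter
      (Subgroup.isOpen_mono (fun g m => (one D.ec m).1) (hR e).1.opn)) ⟨g.fv _ _ o f, ?_⟩
      (fun _ i => ⟨?_, un o d i⟩) m
    · obtain ⟨x, s, i, rfl⟩ := P004R.Wr.fb_cj o' f' ⟨P, o.2.1, o.2.2, f⟩
      refine D.η.normal_ker.conj_mem _ (mul_mem (un o' d i) s2) x
    · exact (mul_mem_cancel_left (g.fv _ _ o f)).1 (g.fv _ _ o (Mu.Lv.fb_mul o f i))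
  · obtain ⟨i, hi⟩ := ix a h
    exact hi ▸ kd.kk i

end Vale.Agent.P014Z.Rk
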